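import Vale.Agent.P240.R2.H406.S7

/-!
The sign changes in the commutator subgroup: the result.
-/

set_option autoImplicit false
set_option linter.all false

namespace Vale.Agent.P240.R2.H406

open Matrix
open scoped commutatorElement
open Vale.Agent.P240.R2.H145.EO
open Vale.Agent.P240.R2.H401.D (POD SD0 SD0_normal)

noncomputable section

section
variable {n : ℕ} {a : Fin n → ZMod 5}

lemma sg_insert {i : Fin n} {J : Finset (Fin n)} (h : i ∉ J) :
    sg a (insert i J) = sg a {i} * sg a J := by
  rw [sg_mul]
  congr 1
  ext l
  simp only [Finset.mem_insert, Finset.mem_singleton, Finset.mem_symmDiff]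
  by_cases h2 : l = i
  · subst h2; simp [h]
  · simp [h2]

lemma chi_sg (hv : ∀ i, a i = 1 ∨ a i = 2) (J : Finset (Fin n)) :
    chi a (sg a J) = (-1) ^ (J.filter fun i => a i = 1).card := by
  classical
  induction J using Finset.induction_on with
  | empty => rw [sg_empty, map_one]; simp
  | insert i J hi ih =>
    rw [sg_insert hi, map_mul, ih, chi_single hv, Finset.filter_insert]
    by_cases h : a i = 1
    · rw [if_pos h, if_pos h, Finset.card_insert_of_notMem (by simp [hi]), pow_succ']
    · rw [if_neg h, if_neg h, one_mul]

/-- the determinant -/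
def dt (a : Fin n → ZMod 5) : ↥(OD a) →* (ZMod 5)ˣ :=
  Matrix.GeneralLinearGroup.det.comp (OD a).subtype

lemma dt_sg (J : Finset (Fin n)) : dt a (sg a J) = (-1) ^ J.card := by
  apply Units.ext
  show (sg a J).1.1.det = _
  rw [sg_coe, det_diagonal, Finset.prod_ite]
  simp

lemma comm_one {A : Type*} [CommGroup A] (φ : ↥(OD a) →* A) {g : ↥(OD a)}
    (h : g ∈ commutator ↥(OD a)) : φ g = 1 := by
  have h1 : commutator ↥(OD a) ≤ φ.ker := Abelianization.commutator_subset_ker φ
  exact h1 h

lemma mem_SD0_iff (hP : PNum a) {g : ↥(OD a)} :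
    g ∈ SD0 a ↔ g ∈ commutator ↥(OD a) ∨ g * sg a Finset.univ ∈ commutator ↥(OD a) := by
  have h1 : (commutator ↥(OD a)).map (QuotientGroup.mk' (Subgroup.center ↥(OD a))) =
      commutator (POD a) := by
    rw [commutator_def, commutator_def, Subgroup.map_commutator,
      Subgroup.map_top_of_surjective _ (QuotientGroup.mk'_surjective _)]
  have hz : sg a Finset.univ ∈ Subgroup.center ↥(OD a) := (mem_center_iff hP).2 (Or.inr rfl)
  constructor
  · intro h
    have h2 : QuotientGroup.mk' (Subgroup.center ↥(OD a)) g ∈ commutator (POD a) := h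
    rw [← h1] at h2
    obtain ⟨k, hk, hkg⟩ := h2
    have h3 : k⁻¹ * g ∈ Subgroup.center ↥(OD a) := QuotientGroup.eq.1 hkg
    rcases (mem_center_iff hP).1 h3 with h4 | h4
    · left
      rw [inv_mul_eq_one.1 h4] at hk
      exact hk
    · right
      have h5 : g = k * sg a Finset.univ := by rw [← h4]; group
      rw [h5, mul_assoc, sg_mul_self, mul_one]
      exact hk
  · rintro (h | h)
    · exact mem_SD0_of h
    · have h2 := mem_SD0_of h
      have h3 : sg a Finset.univ ∈ SD0 a := by
        show QuotientGroup.mk' _ (sg a Finset.univ) ∈ commutator (POD a)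
        have : QuotientGroup.mk' (Subgroup.center ↥(OD a)) (sg a Finset.univ) = 1 :=
          (QuotientGroup.eq_one_iff _).2 hz
        rw [this]
        exact one_mem _
      have h4 := mul_mem h2 h3
      rwa [mul_assoc, sg_mul_self, mul_one] at h4

lemma par_zero {J : Finset (Fin n)} : par a J = 0 ↔
    Even (J.filter fun i => a i = 1).card ∧ Even (J.filter fun i => a i = 2).card := by
  rw [par, Prod.mk_eq_zero, ZMod.natCast_eq_zero_iff_even, ZMod.natCast_eq_zero_iff_even]

lemma card_split (hv : ∀ i, a i = 1 ∨ a i = 2) (J : Finset (Fin n)) :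
    J.card = (J.filter fun i => a i = 1).card + (J.filter fun i => a i = 2).card := by
  rw [← Finset.card_filter_add_card_filter_not (s := J) (fun i => a i = 1)]
  congr 2
  refine Finset.filter_congr fun i _ => ?_
  rcases hv i with h | h <;> rw [h] <;> decide

lemma even_of_pow {m : ℕ} {A : Type*} [Monoid A] [HasDistribNeg A] (h1 : (-1 : A) ≠ 1)
    (h : (-1 : A) ^ m = 1) : Even m := by
  by_contra h2
  rw [Nat.not_even_iff_odd] at h2
  rw [h2.neg_one_pow] at h
  exact h1 h

end

/-- **membership** -/
theorem stmtMem : StmtMem := by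
  classical
  intro n a hP J
  rw [par_zero]
  have hE1 : Even (Finset.univ.filter fun i => a i = 1).card := hP.ev1
  have hE : Even (Finset.univ : Finset (Fin n)).card := by
    rw [card_split hP.val]
    exact hP.ev1.add hP.ev2
  constructor
  · intro h
    have h1 : chi a (sg a J) = 1 ∧ dt a (sg a J) = 1 := by
      rcases (mem_SD0_iff hP).1 h with h | h
      · exact ⟨comm_one _ h, comm_one _ h⟩
      · have h2 := comm_one (chi a) h
        have h3 := comm_one (dt a) h
        rw [map_mul, chi_sg hP.val Finset.univ, hE1.neg_one_pow, mul_one] at h2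
        rw [map_mul, dt_sg Finset.univ, hE.neg_one_pow, mul_one] at h3
        exact ⟨h2, h3⟩
    obtain ⟨h1, h2⟩ := h1
    rw [chi_sg hP.val] at h1
    rw [dt_sg] at h2
    have h3 := even_of_pow (by decide) h1
    have h4 := even_of_pow (by decide) h2
    refine ⟨h3, ?_⟩
    rw [card_split hP.val, Nat.even_add] at h4
    exact h4.1 h3
  · -- the converse
    obtain ⟨i1, hi1⟩ := exists_one hP
    obtain ⟨j1, hj1⟩ := exists_two hP
    have key : ∀ J : Finset (Fin n), ∃ g ∈ commutator ↥(OD a),
        sg a J = g * (sg a {i1} ^ (J.filter fun i => a i = 1).card *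
          sg a {j1} ^ (J.filter fun i => a i = 2).card) := by
      intro J
      induction J using Finset.induction_on with
      | empty => exact ⟨1, one_mem _, by rw [sg_empty]; simp⟩
      | insert i J hi ih =>
        obtain ⟨g, hg, h⟩ := ih
        have hpair : ∀ k, a i = a k → sg a {i} * sg a {k} ∈ commutator ↥(OD a) := by
          intro k hk
          by_cases hik : i = k
          · rw [hik, sg_mul_self]; exact one_mem _
          · exact sg_pair hk (ne_zero_of_val hP.val i) hik
        have hcn : ∀ g ∈ commutator ↥(OD a), ∀ x, x * g * x⁻¹ ∈ commutator ↥(OD a) :=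
          fun g hg x => (inferInstance : (commutator ↥(OD a)).Normal).conj_mem g hg x
        rcases hP.val i with h1 | h1
        · have h2 : ¬ a i = 2 := by rw [h1]; decide
          have h3 := hpair i1 (by rw [h1, hi1])
          refine ⟨(sg a {i} * sg a {i1}) * (sg a {i1} * g * (sg a {i1})⁻¹),
            mul_mem h3 (hcn g hg _), ?_⟩
          rw [sg_insert hi, h, Finset.filter_insert, Finset.filter_insert, if_pos h1, if_neg h2,
            Finset.card_insert_of_notMem (by simp [hi]), pow_succ']
          calc sg a {i} * (g * (sg a {i1} ^ (J.filter fun i => a i = 1).card *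
                sg a {j1} ^ (J.filter fun i => a i = 2).card))
              = sg a {i} * 1 * g * 1 * (sg a {i1} ^ (J.filter fun i => a i = 1).card *
                sg a {j1} ^ (J.filter fun i => a i = 2).card) := by group
            _ = sg a {i} * (sg a {i1} * sg a {i1}) * g * ((sg a {i1})⁻¹ * sg a {i1}) *
                (sg a {i1} ^ (J.filter fun i => a i = 1).card *
                sg a {j1} ^ (J.filter fun i => a i = 2).card) := by
                  rw [sg_mul_self, inv_mul_cancel]
            _ = _ := by simp only [mul_assoc]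
        · have h2 : ¬ a i = 1 := by rw [h1]; decide
          have h3 := hpair j1 (by rw [h1, hj1])
          refine ⟨(sg a {i} * sg a {j1}) * (sg a {j1} * g * (sg a {j1})⁻¹),
            mul_mem h3 (hcn g hg _), ?_⟩
          have hcm : Commute (sg a {j1}) (sg a {i1} ^ (J.filter fun i => a i = 1).card) :=
            (show Commute (sg a {j1}) (sg a {i1}) from sg_comm _ _).pow_right _
          rw [sg_insert hi, h, Finset.filter_insert, Finset.filter_insert, if_neg h2, if_pos h1,
            Finset.card_insert_of_notMem (by simp [hi]), pow_succ']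
          calc sg a {i} * (g * (sg a {i1} ^ (J.filter fun i => a i = 1).card *
                sg a {j1} ^ (J.filter fun i => a i = 2).card))
              = sg a {i} * 1 * g * 1 * (sg a {i1} ^ (J.filter fun i => a i = 1).card *
                sg a {j1} ^ (J.filter fun i => a i = 2).card) := by group
            _ = sg a {i} * (sg a {j1} * sg a {j1}) * g * ((sg a {j1})⁻¹ * sg a {j1}) *
                (sg a {i1} ^ (J.filter fun i => a i = 1).card *
                sg a {j1} ^ (J.filter fun i => a i = 2).card) := by
                  rw [sg_mul_self, inv_mul_cancel]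
            _ = (sg a {i} * sg a {j1}) * (sg a {j1} * g * (sg a {j1})⁻¹) *
                ((sg a {j1} * sg a {i1} ^ (J.filter fun i => a i = 1).card) *
                sg a {j1} ^ (J.filter fun i => a i = 2).card) := by simp only [mul_assoc]
            _ = _ := by rw [hcm.eq, mul_assoc (sg a {i1} ^ _)]
    rintro ⟨h1, h2⟩
    obtain ⟨g, hg, h⟩ := key J
    have hev : ∀ (k : Fin n) {m : ℕ}, Even m → sg a {k} ^ m = 1 := by
      rintro k m ⟨t, rfl⟩
      rw [← two_mul, pow_mul, pow_two, sg_mul_self, one_pow]
    rw [h, hev i1 h1, hev j1 h2, mul_one, mul_one]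
    exact mem_SD0_of hg

end

end Vale.Agent.P240.R2.H406
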