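import Vale.Agent.P240.R2.H406.S0
import Vale.Agent.P240.R2.H401.DDefs
import Vale.Agent.P240.R2.H487.TF
import Vale.Agent.P240.R2.H487.EDefs

/-!
The groups `PΩ_n^+(5)`, `n ≥ 8` even, at the prime `2` (block O5+): definitions and the list of
statements. The form is `diag(a)` over `ZMod 5`, with entries `1` and `2`.
-/

set_option autoImplicit false
set_option linter.all false

namespace Vale.Agent.P240.R2.H406

open Matrix Subgroup Vale.Agent.P240.K Vale.Agent.P240.H195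
open Vale.Agent.P240.R2.H145.EO (B ac OD rf rf_mem)
open Vale.Agent.P240.R2.H401.D (POD SD0)
open Vale.Agent.P240.R2.H487 (AutTop TopFac)

universe u v w

noncomputable section

section
variable {n : ℕ} (a : Fin n → ZMod 5)

/-- the hypotheses (O5+): entries `1`, `2`, each at least four times, an even number of times -/
structure PNum : Prop where
  val : ∀ i, a i = 1 ∨ a i = 2
  one : 4 ≤ (Finset.univ.filter fun i => a i = 1).card
  two : 4 ≤ (Finset.univ.filter fun i => a i = 2).card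
  ev1 : Even (Finset.univ.filter fun i => a i = 1).card
  ev2 : Even (Finset.univ.filter fun i => a i = 2).card

/-- the simple group: the commutator subgroup of `PO` -/
abbrev Lam : Type := ↥(commutator (POD a))

/-- the isometries act on the simple group by conjugation -/
def Phi : ↥(OD a) →* MulAut (Lam a) :=
  (MulAut.conjNormal (H := commutator (POD a))).comp (QuotientGroup.mk' (Subgroup.center ↥(OD a)))

/-- the parities of the numbers of coordinates of the two classes -/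
def par (J : Finset (Fin n)) : ZMod 2 × ZMod 2 :=
  (((J.filter fun i => a i = 1).card : ℕ), ((J.filter fun i => a i = 2).card : ℕ))

/-- the group `A` -/
def A0 : Subgroup (MulAut (Lam a)) :=
  Subgroup.closure {f | ∃ J : Finset (Fin n), par a J = 0 ∧ f = Phi a (sg a J)}

end

/-- (O1a) (helper406) generation -/
def StmtGen : Prop := ∀ (n : ℕ) (a : Fin n → ZMod 5), 3 ≤ n → (∀ i, a i = 1 ∨ a i = 2) →
  (∃ i, a i = 1) → (∃ j, a j = 2) →
  commutator ↥(OD a) ≤ K0 a ∧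
  (∀ x : Fin n → ZMod 5, B a x x ≠ 0 → ∃ g ∈ K0 a, ∃ (i : Fin n) (c : ZMod 5), c ≠ 0 ∧
    ac g.1 x = c • Pi.single i 1) ∧
  (∀ x : Fin n → ZMod 5, B a x x ≠ 0 → ∀ i : Fin n, (IsSquare (B a x x) ↔ IsSquare (a i)) →
    rfl' a x * sg a {i} ∈ commutator ↥(OD a))

/-- (O1b) (helper406) an automorphism that commutes with the sign changes at two coordinates of the
same class is a sign change -/
def StmtSem : Prop := ∀ (n : ℕ) (a : Fin n → ZMod 5), PNum a → ∀ f : MulAut (Lam a),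
  (∀ i k : Fin n, i ≠ k → a i = a k → f * Phi a (sg a {i, k}) = Phi a (sg a {i, k}) * f) →
  ∃ J : Finset (Fin n), f = Phi a (sg a J)

/-- (O1c) (helper406) the kernel -/
def StmtKer : Prop := ∀ (n : ℕ) (a : Fin n → ZMod 5), PNum a → ∀ g : ↥(OD a),
  Phi a g = 1 ↔ (g = 1 ∨ g = sg a Finset.univ)

/-- (O2) (helper849) membership -/
def StmtMem : Prop := ∀ (n : ℕ) (a : Fin n → ZMod 5), PNum a → ∀ J : Finset (Fin n),
  sg a J ∈ SD0 a ↔ par a J = 0

/-- (O3) the top cycles: `J₀` the coordinates that are left out, `ρ 1`, `ρ 2 ⊆ J₀` the correcting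
sign changes for the two classes of vectors -/
def StmtCyc : Prop := ∀ (n : ℕ) (a : Fin n → ZMod 5), PNum a → ∀ i₀ j₀ : Fin n, a i₀ = 1 →
  a j₀ = 2 → ∀ J₀ ρ₁ ρ₂ : Finset (Fin n),
  ((J₀ = {i₀, j₀} ∧ ρ₁ = {i₀} ∧ ρ₂ = {j₀}) ∨ (J₀ = {j₀} ∧ ρ₁ = ∅ ∧ ρ₂ = {j₀}) ∨
    (J₀ = {i₀} ∧ ρ₁ = {i₀} ∧ ρ₂ = ∅) ∨ (J₀ = {i₀} ∧ ρ₁ = {i₀} ∧ ρ₂ = {i₀}) ∨
    (J₀ = ∅ ∧ ρ₁ = ∅ ∧ ρ₂ = ∅)) →
  ∀ (𝕜 : Type w) [Field 𝕜] (M : Subgroup (MulAut (Lam a))),
  (∀ x : Fin n → ZMod 5, (∀ i ∈ J₀, x i = 0) → B a x x ≠ 0 →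
    Phi a (rfl' a x * sg a (if IsSquare (B a x x) then ρ₁ else ρ₂)) ∈ M) →
  ∃ (α : Ch 𝕜 (Subgroup (MulAut (Lam a)))) (φ : List (Subgroup (MulAut (Lam a)))),
    TopCycle 𝕜 2 M (Subgroup.closure {f | ∃ i ∉ J₀, f = Phi a (sg a {i} * sg a (if a i = 1 then ρ₁ else ρ₂))})
      α φ

/-- (O4) the assembly -/
def StmtAut : Prop := ∀ (n : ℕ) (a : Fin n → ZMod 5), PNum a → ∀ (𝕜 : Type w) [Field 𝕜],
  AutTop 𝕜 (Lam a)

end

end Vale.Agent.P240.R2.H406
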