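import Vale.Agent.P240.R2.H406.S6
import Vale.Agent.P240.R2.H406.S8
import Vale.Agent.P240.R2.H19.Aut
import Vale.Agent.P240.R2.H506.Cyc

/-!
The groups `PΩ_n^+(5)`, `n ≥ 8` even: the result.
-/

set_option autoImplicit false

namespace Vale.Agent.P240.R2.H406

universe w

theorem stmtCyc : StmtCyc.{w} := H506.stmtCyc_of stmtKer

theorem stmtAut : StmtAut.{w} := H19.stmtAut_of stmtGen stmtSem stmtKer stmtMem stmtCyc

end Vale.Agent.P240.R2.H406
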