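import Vale.Agent.P240.R2.H406.T3
import Vale.Agent.P240.R2.H458.PD

/-!
The statements (S2), (S3) of block P4d.
-/

set_option autoImplicit false
set_option linter.all false

namespace Vale.Agent.P240.R2.H406.Six

/-- (S2) -/
theorem stmtKer6 : Vale.Agent.P240.R2.H458.StmtKer6 := ker6

/-- (S3) -/
theorem stmtChi6 : Vale.Agent.P240.R2.H458.StmtChi6 := chi6

end Vale.Agent.P240.R2.H406.Six
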