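import Vale.Agent.P240.R2.H406.Z
import Vale.Agent.P240.R2.H406.T4
import Vale.Agent.P240.R2.H458.P9
import Vale.Agent.P240.R2.H306.Sem6
import Vale.Agent.P240.R2.H179.Tau6
import Vale.Agent.P240.R2.N402.Fr6
import Vale.Agent.P240.R2.H506.VR6

/-!
Block P4d: the five cycles and the result `AutG` for `PΩ_6^+(5)`.
-/

set_option autoImplicit false
set_option linter.all false

namespace Vale.Agent.P240.R2.H406.Cy6

open Matrix Vale.Agent.P240.K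
open Subgroup hiding closure
open Vale.Agent.P240.R2.H145.EO (B OD B_comm B_add_left B_add_right B_smul_left
  B_smul_right B_sub_left B_sub_right)
open Vale.Agent.P240.R2.H406 Vale.Agent.P240.R2.H458
open Vale.Agent.P240.R2.H490 (ip VR)

universe u v w

noncomputable section

section
variable {χ : ↥(OD a1) →* Q4} {Q : Subgroup Q4} {n : ℕ} {w : Fin 6 → V6} {d : Fin 6 → ZMod 5}
    {κ μ : Fin n → Fin 6} {T₀ : Finset (Fin 6 × Fin 6)} {ρ₁ ρ₂ : ↥(OD a1)}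
    (h : Cs χ Q w d κ μ T₀ ρ₁ ρ₂)
include h

lemma FV_dg : FV w κ ρ₁ ρ₂ ≤ (DgS w).map (Phi a1) := by
  rw [FV, Subgroup.closure_le]
  rintro _ ⟨i, rfl⟩
  exact ⟨pr2 w (κ i) (μ i), h.fr.pr2_dg _ _, (h.RV_single i).symm⟩

lemma dg_sq {g : ↥(OD a1)} (hg : Dg w g) : g * g = 1 := by
  refine h.fr.act_ext fun i => ?_
  rw [H406.act_mul, H406.act_one]
  rcases hg i with h1 | h1
  · rw [h1, h1]
  · rw [h1, H406.act_neg, h1, neg_neg]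

lemma RV_cent {S : Set (MulAut (Lam a1))} (hS : ∀ s ∈ S, ∃ ρ, (ρ = ρ₁ ∨ ρ = ρ₂) ∧ s = Phi a1 ρ)
    (x : Fin n → ZMod 5) :
    RV w κ ρ₁ ρ₂ x ∈ centralizer ((Subgroup.closure S : Subgroup (MulAut (Lam a1))) :
      Set (MulAut (Lam a1))) := by
  have h1 : Subgroup.closure S ≤ centralizer {RV w κ ρ₁ ρ₂ x} := by
    rw [Subgroup.closure_le]
    intro y hy
    obtain ⟨ρ, hρ, rfl⟩ := hS y hy
    rw [SetLike.mem_coe, mem_centralizer_iff]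
    rintro z rfl
    exact h.rho_comm x hρ
  rw [mem_centralizer_iff]
  intro y hy
  exact (mem_centralizer_iff.1 (h1 hy) _ rfl).symm

/-- the packaging -/
theorem cy (𝕜 : Type v) [Field 𝕜] (hK : StmtKer6) (hV : StmtVR) (hχ : Chi χ) (hT0 : T₀ = ∅)
    (h1 : ∃ i, IsSquare (d (κ i))) (h2 : ∃ i, ¬ IsSquare (d (κ i)))
    {S : Set (MulAut (Lam a1))} (hS : ∀ s ∈ S, ∃ ρ, (ρ = ρ₁ ∨ ρ = ρ₂) ∧ s = Phi a1 ρ)
    (hfam : ∃ A ∈ fam, A ≤ FV w κ ρ₁ ρ₂) (hsec : ∀ q, Dg w (sec q)) :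
    Cy 𝕜 χ Q (Subgroup.closure S) := by
  have hle : FV w κ ρ₁ ρ₂ ≤ MQ χ Q ⊓ centralizer
      ((Subgroup.closure S : Subgroup (MulAut (Lam a1))) : Set (MulAut (Lam a1))) := by
    refine le_inf (h.FV_le hχ) ?_
    rw [FV, Subgroup.closure_le]
    rintro _ ⟨i, rfl⟩
    exact RV_cent h hS _
  refine ⟨FV w κ ρ₁ ρ₂, hle, ⟨?_, h.FV_abel, ?_⟩, hfam, ?_, ?_⟩
  · obtain ⟨A, ⟨t, rfl⟩, hA⟩ := hfam
    intro h0
    rw [h0] at hA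
    exact (H487.cj_ApS (y := t) (A0_ApS hK)).1 (le_bot_iff.1 hA)
  · intro x hx
    obtain ⟨g, hg, rfl⟩ := FV_dg h hx
    rw [pow_two, ← map_mul, dg_sq h hg, map_one]
  · refine sup_eq hχ (h.FV_le hχ) fun q hq => ⟨sec q, h.dg_FV hχ (hsec q) ?_, chi_sec hχ q⟩
    rw [chi_sec hχ]
    exact hq
  · exact h.lc 𝕜 hK hV hχ hT0 h1 h2 (fun x hx => mem_inf.2 ⟨h.RV_mem hχ hx, RV_cent h hS x⟩)
      inf_le_left

end

lemma A0_fam : H458.A0 ∈ fam := ⟨1, (H487.cj_one H458.A0).symm⟩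

lemma secI (q : Q4) : Dg wI (sec q) := by
  refine (DgS wI).mul_mem ?_ ?_
  · split_ifs
    · exact frI.r_dg 2
    · exact dg_one _
  · split_ifs
    · exact frI.r_dg 4
    · exact dg_one _

lemma sec1 (q : Q4) : Dg w1 (sec q) := by
  refine (DgS w1).mul_mem ?_ ?_
  · split_ifs
    · exact fr1.r_dg 2
    · exact dg_one _
  · split_ifs
    · exact fr1.r_dg 4
    · exact dg_one _

lemma A0_dgI : H458.A0 ≤ (DgS wI).map (Phi a1) := by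
  rw [H458.A0, Subgroup.closure_le]
  rintro _ (rfl | rfl)
  · exact ⟨_, by rw [Z.sg02]; exact frI.pr2_dg _ _, rfl⟩
  · exact ⟨_, by rw [Z.sg12]; exact frI.pr2_dg _ _, rfl⟩

section
variable {χ : ↥(OD a1) →* Q4} {Q : Subgroup Q4} {n : ℕ} {κ μ : Fin n → Fin 6}
  {T₀ : Finset (Fin 6 × Fin 6)} {ρ₁ ρ₂ : ↥(OD a1)}

lemma famI (hχ : Chi χ) (h : Cs χ Q wI dI κ μ T₀ ρ₁ ρ₂) : ∃ A ∈ fam, A ≤ FV wI κ ρ₁ ρ₂ := by
  refine ⟨H458.A0, A0_fam, ?_⟩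
  rw [H458.A0, Subgroup.closure_le]
  have key : ∀ i j : Fin 6, i ≠ j → χ (sg a1 {i, j}) ∈ Q := by
    intro i j hij
    rw [H458.chi_sg hχ hij]
    exact one_mem _
  rintro _ (rfl | rfl)
  · exact h.dg_FV hχ (by rw [Z.sg02]; exact frI.pr2_dg _ _) (key _ _ (by decide))
  · exact h.dg_FV hχ (by rw [Z.sg12]; exact frI.pr2_dg _ _) (key _ _ (by decide))

/-- the transformed vectors -/
lemma tau_e : (![ (ee 0 : V6) 0 + (ee 0 : V6) 1, (ee 0 : V6) 0 - (ee 0 : V6) 1,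
    (ee 0 : V6) 2 + (ee 0 : V6) 3, (ee 0 : V6) 2 - (ee 0 : V6) 3,
    (ee 0 : V6) 4 + (ee 0 : V6) 5, (ee 0 : V6) 4 - (ee 0 : V6) 5] : V6) = w1 0 := by
  decide +kernel

lemma tau_e1 : (![ (ee 1 : V6) 0 + (ee 1 : V6) 1, (ee 1 : V6) 0 - (ee 1 : V6) 1,
    (ee 1 : V6) 2 + (ee 1 : V6) 3, (ee 1 : V6) 2 - (ee 1 : V6) 3,
    (ee 1 : V6) 4 + (ee 1 : V6) 5, (ee 1 : V6) 4 - (ee 1 : V6) 5] : V6) = w1 1 := by
  decide +kernel

lemma tau_e4 : (![ (ee 4 : V6) 0 + (ee 4 : V6) 1, (ee 4 : V6) 0 - (ee 4 : V6) 1,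
    (ee 4 : V6) 2 + (ee 4 : V6) 3, (ee 4 : V6) 2 - (ee 4 : V6) 3,
    (ee 4 : V6) 4 + (ee 4 : V6) 5, (ee 4 : V6) 4 - (ee 4 : V6) 5] : V6) = w1 4 := by
  decide +kernel

lemma fam1 (hT : StmtTau6) (hχ : Chi χ) (h : Cs χ Q w1 d1 κ μ T₀ ρ₁ ρ₂) :
    ∃ A ∈ fam, A ≤ FV w1 κ ρ₁ ρ₂ := by
  obtain ⟨τ, hτ⟩ := hT
  have e0 := hτ (ee 0) (frS.ne' 0)
  have e1 := hτ (ee 1) (frS.ne' 1)
  have e4 := hτ (ee 4) (frS.ne' 4)
  rw [tau_e] at e0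
  rw [tau_e1] at e1
  rw [tau_e4] at e4
  -- the isometry
  set p : ↥(OD a1) := rfl' a1 (ee 2 - ee 4) with hp
  have p0 : p * rfl' a1 (ee 0) * p⁻¹ = rfl' a1 (ee 0) := by
    rw [rfl'_conj, hp, Z.act_swap (by decide), Equiv.swap_apply_of_ne_of_ne (by decide) (by decide)]
  have p1 : p * rfl' a1 (ee 1) * p⁻¹ = rfl' a1 (ee 1) := by
    rw [rfl'_conj, hp, Z.act_swap (by decide), Equiv.swap_apply_of_ne_of_ne (by decide) (by decide)]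
  have p2 : p * rfl' a1 (ee 2) * p⁻¹ = rfl' a1 (ee 4) := by
    rw [rfl'_conj, hp, Z.act_swap (by decide), Equiv.swap_apply_left]
  set t : MulAut (Lam a1) := τ * Phi a1 p with ht
  have key : ∀ (x : ↥(OD a1)) (y : ↥(OD a1)) (z : MulAut (Lam a1)), p * x * p⁻¹ = y →
      τ * Phi a1 y * τ⁻¹ = z → t * Phi a1 x * t⁻¹ = z := by
    intro x y z h1 h2
    rw [← h2, ← h1, map_mul, map_mul, map_inv, ht]
    group
  have t0 := key _ _ _ p0 e0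
  have t1 := key _ _ _ p1 e1
  have t2 := key _ _ _ p2 e4
  refine ⟨H458.A0.map (MulAut.conj t).toMonoidHom, ⟨t, rfl⟩, ?_⟩
  have hQ : ∀ i j : Fin 6, ¬ IsSquare (d1 i) → ¬ IsSquare (d1 j) → i ≠ j → χ (pr2 w1 i j) ∈ Q := by
    intro i j hi hj hij
    rw [pr2_ne _ hij, map_mul, fr1.chi2 hχ hi, fr1.chi2 hχ hj]
    exact one_mem _
  rw [map_le_iff_le_comap, H458.A0, Subgroup.closure_le]
  rintro _ (rfl | rfl)
  · show t * Phi a1 (sg a1 {0, 2}) * t⁻¹ ∈ FV w1 κ ρ₁ ρ₂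
    have h1 : t * Phi a1 (sg a1 {0, 2}) * t⁻¹ = Phi a1 (pr2 w1 0 4) := by
      rw [sg_eq 0 2 (by decide), pr2_ne _ (by decide), map_mul, map_mul, ← t0, ← t2]
      group
    rw [h1]
    exact h.dg_FV hχ (fr1.pr2_dg _ _) (hQ 0 4 (by decide) (by decide) (by decide))
  · show t * Phi a1 (sg a1 {1, 2}) * t⁻¹ ∈ FV w1 κ ρ₁ ρ₂
    have h1 : t * Phi a1 (sg a1 {1, 2}) * t⁻¹ = Phi a1 (pr2 w1 1 4) := by
      rw [sg_eq 1 2 (by decide), pr2_ne _ (by decide), map_mul, map_mul, ← t1, ← t2]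
      group
    rw [h1]
    exact h.dg_FV hχ (fr1.pr2_dg _ _) (hQ 1 4 (by decide) (by decide) (by decide))

end

section
variable (𝕜 : Type v) [Field 𝕜] {χ : ↥(OD a1) →* Q4} (hK : StmtKer6) (hV : StmtVR) (hχ : Chi χ)
include hK hV hχ

theorem cD : Cy 𝕜 χ ⊤ ⊥ := by
  have h1 := cy (csD hχ) 𝕜 hK hV hχ rfl ⟨0, by decide⟩ ⟨4, by decide⟩ (S := ∅) (by simp)
    (famI hχ (csD hχ)) secI
  rwa [Subgroup.closure_empty] at h1

theorem cB : Cy 𝕜 χ QB (Subgroup.closure {rl}) :=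
  cy (csB hχ) 𝕜 hK hV hχ rfl ⟨0, by decide⟩ ⟨3, by decide⟩
    (by rintro s rfl; exact ⟨_, Or.inl rfl, rfl⟩) (famI hχ (csB hχ)) secI

theorem cN : Cy 𝕜 χ QN (Subgroup.closure {rl}) :=
  cy (csN hχ) 𝕜 hK hV hχ rfl ⟨0, by decide⟩ ⟨3, by decide⟩
    (by rintro s rfl; exact ⟨_, Or.inl rfl, rfl⟩) (famI hχ (csN hχ)) secI

theorem cO (hT : StmtTau6) : Cy 𝕜 χ QO (Subgroup.closure {rm}) :=
  cy (csO hχ) 𝕜 hK hV hχ rfl ⟨2, by decide⟩ ⟨0, by decide⟩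
    (by rintro s rfl; exact ⟨_, Or.inr rfl, rfl⟩) (fam1 hT hχ (csO hχ)) sec1

theorem cZ : Cy 𝕜 χ ⊥ (Subgroup.closure {rl, rm}) := by
  have hI := MQ_bot hχ
  have hA : H458.A0 ≤ MQ χ ⊥ := by rw [hI]; exact A0_inn hχ
  refine ⟨H458.A0, le_inf hA ?_, A0_ApS hK, ⟨_, A0_fam, le_rfl⟩, ?_, Z.stmtZ 𝕜 hK hV χ hχ⟩
  · intro x hx
    obtain ⟨g, hg, rfl⟩ := A0_dgI hx
    have h1 : Subgroup.closure {rl, rm} ≤ centralizer {Phi a1 g} := by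
      rw [Subgroup.closure_le]
      rintro y (rfl | rfl)
      · rw [SetLike.mem_coe, mem_centralizer_iff]
        rintro z rfl
        show Phi a1 g * Phi a1 (rfl' a1 (wI 2)) = Phi a1 (rfl' a1 (wI 2)) * Phi a1 g
        rw [← map_mul, ← map_mul, frI.dg_comm hg (frI.r_dg 2)]
      · rw [SetLike.mem_coe, mem_centralizer_iff]
        rintro z rfl
        show Phi a1 g * Phi a1 (rfl' a1 (wI 4)) = Phi a1 (rfl' a1 (wI 4)) * Phi a1 g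
        rw [← map_mul, ← map_mul, frI.dg_comm hg (frI.r_dg 4)]
    rw [mem_centralizer_iff]
    intro y hy
    exact (mem_centralizer_iff.1 (h1 hy) _ rfl).symm
  · rw [hI]
    exact sup_eq_left.2 (A0_inn hχ)

end

/-- **`PΩ_6^+(5)`** -/
theorem autG6 : StmtAut6.{w} := by
  intro 𝕜 _
  have hK := Six.stmtKer6
  have hV := H506.stmtVR
  obtain ⟨χ, hχ⟩ := chi_of Six.stmtChi6
  exact stmtAsm6 𝕜 H306.stmtSem6 hK N402.stmtFrame6 χ hχ (cZ 𝕜 hK hV hχ) (cB 𝕜 hK hV hχ)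
    (cN 𝕜 hK hV hχ) (cO 𝕜 hK hV hχ H179.Tau6.stmtTau6) (cD 𝕜 hK hV hχ)

end

end Vale.Agent.P240.R2.H406.Cy6
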