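import Vale.Agent.P240.R2.H145.EO1

/-!
The isometries of `diag(a)` over `ZMod 5`: reflections, sign changes, the elements `om i j`.
-/

set_option autoImplicit false
set_option linter.all false

namespace Vale.Agent.P240.R2.H406

open Matrix Subgroup
open Vale.Agent.P240.R2.H145.EO

noncomputable section

instance fact5 : Fact (Nat.Prime 5) := ⟨by norm_num⟩

section
variable {n : ℕ} (a : Fin n → ZMod 5)

/-- the sign change at the coordinates in `J`, as a matrix -/
def sgM (J : Finset (Fin n)) : Matrix (Fin n) (Fin n) (ZMod 5) :=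
  diagonal fun i => if i ∈ J then -1 else 1

lemma sgM_mul (J : Finset (Fin n)) : sgM J * sgM J = 1 := by
  rw [sgM, diagonal_mul_diagonal, ← diagonal_one]
  congr 1
  funext i
  by_cases h : i ∈ J <;> simp [h]

/-- the sign change at the coordinates in `J` -/
def sg (J : Finset (Fin n)) : ↥(OD a) := ⟨⟨sgM J, sgM J, sgM_mul J, sgM_mul J⟩, by
  intro x y
  unfold B ac
  refine Finset.sum_congr rfl fun i _ => ?_
  show a i * (sgM J *ᵥ x) i * (sgM J *ᵥ y) i = _
  rw [sgM, mulVec_diagonal, mulVec_diagonal]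
  by_cases h : i ∈ J <;> simp [h]⟩

/-- the reflection (`1` for an isotropic vector) -/
def rfl' (x : Fin n → ZMod 5) : ↥(OD a) :=
  if h : B a x x ≠ 0 then ⟨rf a x h, rf_mem h⟩ else 1

/-- the order three element of the plane `⟨e_i, e_j⟩`, `a i = 1`, `a j = 2` -/
def om (i j : Fin n) : ↥(OD a) :=
  rfl' a ((2 : ZMod 5) • Pi.single i 1 - Pi.single j 1) * rfl' a (Pi.single i 1)

/-- the subgroup generated by the `om i j` -/
def K0 : Subgroup ↥(OD a) := closure {g | ∃ i j, a i = 1 ∧ a j = 2 ∧ g = om a i j}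

variable {a}

/-- the action of an isometry -/
abbrev act (g : ↥(OD a)) (x : Fin n → ZMod 5) : Fin n → ZMod 5 := ac g.1 x

lemma act_mul (g h : ↥(OD a)) (x : Fin n → ZMod 5) : act (g * h) x = act g (act h x) :=
  ac_mul g.1 h.1 x

lemma act_one (x : Fin n → ZMod 5) : act (1 : ↥(OD a)) x = x := ac_one x

lemma act_add (g : ↥(OD a)) (x y : Fin n → ZMod 5) : act g (x + y) = act g x + act g y :=
  ac_add _ _ _

lemma act_smul (g : ↥(OD a)) (c : ZMod 5) (x : Fin n → ZMod 5) : act g (c • x) = c • act g x :=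
  ac_smul _ _ _

lemma act_B (g : ↥(OD a)) (x y : Fin n → ZMod 5) : B a (act g x) (act g y) = B a x y :=
  OD_B g.2 x y

lemma act_inv (g : ↥(OD a)) (x : Fin n → ZMod 5) : act g⁻¹ (act g x) = x := ac_inv g.1 x

lemma act_inv' (g : ↥(OD a)) (x : Fin n → ZMod 5) : act g (act g⁻¹ x) = x := ac_inv' g.1 x

lemma act_ext {g h : ↥(OD a)} (H : ∀ x, act g x = act h x) : g = h :=
  Subtype.ext (gl_ext H)

lemma act_sg (J : Finset (Fin n)) (x : Fin n → ZMod 5) :
    act (sg a J) x = fun k => if k ∈ J then - x k else x k := by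
  funext k
  show (sgM J *ᵥ x) k = _
  rw [sgM, mulVec_diagonal]
  by_cases h : k ∈ J <;> simp [h]

lemma sg_coe (J : Finset (Fin n)) : (sg a J).1.1 = diagonal fun i => if i ∈ J then -1 else 1 := rfl

lemma sg_mul_self (J : Finset (Fin n)) : sg a J * sg a J = 1 := by
  apply Subtype.ext
  apply Units.ext
  exact sgM_mul J

lemma sg_inv (J : Finset (Fin n)) : (sg a J)⁻¹ = sg a J :=
  inv_eq_of_mul_eq_one_left (sg_mul_self J)

lemma sg_mul (J J' : Finset (Fin n)) : sg a J * sg a J' = sg a (symmDiff J J') := by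
  refine act_ext fun x => ?_
  rw [act_mul, act_sg, act_sg, act_sg]
  funext k
  simp only [Finset.mem_symmDiff]
  by_cases h : k ∈ J <;> by_cases h' : k ∈ J' <;> simp [h, h']

lemma sg_comm (J J' : Finset (Fin n)) : sg a J * sg a J' = sg a J' * sg a J := by
  rw [sg_mul, sg_mul, symmDiff_comm]

lemma sg_empty : sg a ∅ = 1 := by
  refine act_ext fun x => ?_
  rw [act_sg, act_one]
  simp

lemma act_rfl' {v : Fin n → ZMod 5} (hv : B a v v ≠ 0) (x : Fin n → ZMod 5) :
    act (rfl' a v) x = x - (2 * B a v x / B a v v) • v := by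
  have h : (rfl' a v).1 = rf a v hv := by
    rw [rfl', dif_pos hv]
  show ac (rfl' a v).1 x = _
  rw [h, ac_rf]

lemma rfl'_mul_self (v : Fin n → ZMod 5) : rfl' a v * rfl' a v = 1 := by
  by_cases hv : B a v v ≠ 0
  · rw [rfl', dif_pos hv]
    exact Subtype.ext (rf_rf hv)
  · rw [rfl', dif_neg hv, mul_one]

lemma rfl'_inv (v : Fin n → ZMod 5) : (rfl' a v)⁻¹ = rfl' a v :=
  inv_eq_of_mul_eq_one_left (rfl'_mul_self v)

lemma rfl'_conj (g : ↥(OD a)) (v : Fin n → ZMod 5) :
    g * rfl' a v * g⁻¹ = rfl' a (act g v) := by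
  by_cases hv : B a v v ≠ 0
  · have hw : B a (act g v) (act g v) ≠ 0 := by rwa [act_B]
    rw [rfl', dif_pos hv, rfl', dif_pos hw]
    exact Subtype.ext (rf_conj g.2 hv hw (Or.inl rfl))
  · have hw : ¬ B a (act g v) (act g v) ≠ 0 := by rwa [act_B]
    rw [rfl', dif_neg hv, rfl', dif_neg hw, mul_one, mul_inv_cancel]

lemma rfl'_smul {c : ZMod 5} (hc : c ≠ 0) (v : Fin n → ZMod 5) : rfl' a (c • v) = rfl' a v := by
  by_cases hv : B a v v ≠ 0
  · have hw : B a (c • v) (c • v) ≠ 0 := by
      rw [B_smul_left, B_smul_right]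
      exact mul_ne_zero hc (mul_ne_zero hc hv)
    refine act_ext fun x => ?_
    rw [act_rfl' hw, act_rfl' hv, B_smul_left, B_smul_left, B_smul_right, smul_smul]
    congr 2
    field_simp
  · have hw : ¬ B a (c • v) (c • v) ≠ 0 := by
      rw [not_not] at hv ⊢
      rw [B_smul_left, B_smul_right, hv, mul_zero, mul_zero]
    rw [rfl', dif_neg hw, rfl', dif_neg hv]

lemma B_e (i : Fin n) (y : Fin n → ZMod 5) : B a (Pi.single i 1) y = a i * y i := by
  rw [B_single]; ring

lemma B_ee (i : Fin n) : B a (Pi.single i 1) (Pi.single i 1) = a i := by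
  rw [B_e, Pi.single_eq_same, mul_one]

lemma act_rfl'_e {i : Fin n} (hi : a i ≠ 0) (x : Fin n → ZMod 5) :
    act (rfl' a (Pi.single i 1)) x = fun k => if k = i then - x k else x k := by
  rw [act_rfl' (by rwa [B_ee]), B_ee, B_e]
  funext k
  by_cases h : k = i
  · subst h
    simp only [Pi.sub_apply, Pi.smul_apply, Pi.single_eq_same, smul_eq_mul, if_true]
    field_simp
    ring
  · simp [h]

lemma rfl'_e {i : Fin n} (hi : a i ≠ 0) : rfl' a (Pi.single i 1) = sg a {i} := by
  refine act_ext fun x => ?_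
  rw [act_rfl'_e hi, act_sg]
  simp

/-- the action of `om i j` -/
lemma act_om {i j : Fin n} (hi : a i = 1) (hj : a j = 2) (x : Fin n → ZMod 5) :
    act (om a i j) x = fun k => if k = i then 2 * x i + 3 * x j else
      if k = j then x i + 2 * x j else x k := by
  have hij : i ≠ j := by
    rintro rfl
    rw [hi] at hj
    exact absurd hj (by decide)
  have hB : ∀ y : Fin n → ZMod 5, B a ((2 : ZMod 5) • Pi.single i 1 - Pi.single j 1) y =
      2 * y i - 2 * y j := by
    intro y
    rw [B_sub_left, B_smul_left, B_e, B_e, hi, hj]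
    ring
  have hvv : B a ((2 : ZMod 5) • Pi.single i 1 - Pi.single j 1)
      ((2 : ZMod 5) • Pi.single i 1 - Pi.single j 1) = 1 := by
    rw [hB]
    simp [hij, hij.symm]
    decide
  rw [om, act_mul, act_rfl'_e (by rw [hi]; decide), act_rfl' (by rw [hvv]; decide), hvv, hB]
  funext k
  have h5 : (5 : ZMod 5) = 0 := by decide
  simp only [Pi.sub_apply, Pi.smul_apply, smul_eq_mul, if_true, if_neg hij.symm, div_one]
  by_cases hki : k = i
  · subst hki
    simp only [Pi.single_eq_same, if_true, Pi.single_eq_of_ne hij]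
    linear_combination (x k + x j) * h5
  · by_cases hkj : k = j
    · subst hkj
      simp only [Pi.single_eq_same, if_true, Pi.single_eq_of_ne hki, if_neg hki]
      linear_combination (-x i - x k) * h5
    · simp [hki, hkj]

end

end

end Vale.Agent.P240.R2.H406
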