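import Vale.Agent.P240.R2.H406.S0

/-!
Reduction of the support of an anisotropic vector by the group `K0`.
-/

set_option autoImplicit false
set_option linter.all false

namespace Vale.Agent.P240.R2.H406

open Matrix Subgroup
open Vale.Agent.P240.R2.H145.EO

noncomputable section

/-- the number of nonzero entries of a triple -/
def nz (t : ZMod 5 × ZMod 5 × ZMod 5) : ℕ :=
  (if t.1 = 0 then 0 else 1) + (if t.2.1 = 0 then 0 else 1) + (if t.2.2 = 0 then 0 else 1)

/-- the first generator, triple `(i, i', j)` -/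
def uA (t : ZMod 5 × ZMod 5 × ZMod 5) : ZMod 5 × ZMod 5 × ZMod 5 :=
  (2 * t.1 + 3 * t.2.2, t.2.1, t.1 + 2 * t.2.2)

/-- the second generator, triple `(i, i', j)` -/
def vA (t : ZMod 5 × ZMod 5 × ZMod 5) : ZMod 5 × ZMod 5 × ZMod 5 :=
  (t.1, 2 * t.2.1 + 3 * t.2.2, t.2.1 + 2 * t.2.2)

/-- the first generator, triple `(i, j, j')` -/
def uB (t : ZMod 5 × ZMod 5 × ZMod 5) : ZMod 5 × ZMod 5 × ZMod 5 :=
  (2 * t.1 + 3 * t.2.1, t.1 + 2 * t.2.1, t.2.2)

/-- the second generator, triple `(i, j, j')` -/
def vB (t : ZMod 5 × ZMod 5 × ZMod 5) : ZMod 5 × ZMod 5 × ZMod 5 :=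
  (2 * t.1 + 3 * t.2.2, t.2.1, t.1 + 2 * t.2.2)

/-- the words that are needed -/
def wds6 : List (List Bool) :=
  [[true], [true, true], [false], [false, false], [true, true, false, true],
    [true, false, true, true]]

/-- a word in two maps -/
def wa {α : Type*} (u v : α → α) : List Bool → α → α
  | [], t => t
  | b :: w, t => (if b then u else v) (wa u v w t)

lemma chkA : ∀ x y z : ZMod 5, 2 ≤ nz (x, y, z) → ¬ (nz (x, y, z) = 2 ∧
    x * x + y * y + 2 * (z * z) = 0) → ∃ w ∈ wds6, nz (wa uA vA w (x, y, z)) < nz (x, y, z) := by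
  decide +kernel

lemma chkB : ∀ x y z : ZMod 5, 2 ≤ nz (x, y, z) → ¬ (nz (x, y, z) = 2 ∧
    x * x + 2 * (y * y) + 2 * (z * z) = 0) →
    ∃ w ∈ wds6, nz (wa uB vB w (x, y, z)) < nz (x, y, z) := by
  decide +kernel

section
variable {n : ℕ} {a : Fin n → ZMod 5}

/-- the number of nonzero coordinates -/
def sup' (x : Fin n → ZMod 5) : ℕ := ∑ k, if x k = 0 then 0 else 1

/-- the triple of coordinates -/
def tr (i j k : Fin n) (x : Fin n → ZMod 5) : ZMod 5 × ZMod 5 × ZMod 5 := (x i, x j, x k)

/-- replacing three coordinates -/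
def upd (i j k : Fin n) (t : ZMod 5 × ZMod 5 × ZMod 5) (x : Fin n → ZMod 5) : Fin n → ZMod 5 :=
  fun l => if l = i then t.1 else if l = j then t.2.1 else if l = k then t.2.2 else x l

lemma tr_upd {i j k : Fin n} (hij : i ≠ j) (hik : i ≠ k) (hjk : j ≠ k)
    (t : ZMod 5 × ZMod 5 × ZMod 5) (x : Fin n → ZMod 5) : tr i j k (upd i j k t x) = t := by
  simp [tr, upd, hij.symm, hik.symm, hjk.symm]

lemma upd_upd (i j k : Fin n) (t t' : ZMod 5 × ZMod 5 × ZMod 5) (x : Fin n → ZMod 5) :
    upd i j k t (upd i j k t' x) = upd i j k t x := by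
  funext l
  by_cases h1 : l = i
  · simp [upd, h1]
  by_cases h2 : l = j
  · simp [upd, h2]
  by_cases h3 : l = k <;> simp [upd, h1, h2, h3]

lemma upd_tr (i j k : Fin n) (x : Fin n → ZMod 5) : upd i j k (tr i j k x) x = x := by
  funext l
  unfold upd tr
  by_cases h1 : l = i
  · rw [if_pos h1, h1]
  rw [if_neg h1]
  by_cases h2 : l = j
  · rw [if_pos h2, h2]
  rw [if_neg h2]
  by_cases h3 : l = k
  · rw [if_pos h3, h3]
  · rw [if_neg h3]

lemma sup'_upd {i j k : Fin n} (hij : i ≠ j) (hik : i ≠ k) (hjk : j ≠ k)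
    (t : ZMod 5 × ZMod 5 × ZMod 5) (x : Fin n → ZMod 5) :
    sup' (upd i j k t x) + nz (tr i j k x) = sup' x + nz t := by
  have key : ∀ y : Fin n → ZMod 5, sup' y = nz (tr i j k y) +
      ∑ l ∈ Finset.univ \ {i, j, k}, if y l = 0 then 0 else 1 := by
    intro y
    unfold sup'
    rw [← Finset.sum_sdiff (Finset.subset_univ ({i, j, k} : Finset (Fin n))), add_comm]
    congr 1
    rw [Finset.sum_insert (by simp [hij, hik]), Finset.sum_insert (by simp [hjk]),
      Finset.sum_singleton]
    simp only [nz, tr, add_assoc]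
    congr
  have h1 : ∑ l ∈ Finset.univ \ {i, j, k}, (if upd i j k t x l = 0 then 0 else 1 : ℕ) =
      ∑ l ∈ Finset.univ \ {i, j, k}, if x l = 0 then 0 else 1 := by
    refine Finset.sum_congr rfl fun l hl => ?_
    simp only [Finset.mem_sdiff, Finset.mem_univ, true_and, Finset.mem_insert,
      Finset.mem_singleton, not_or] at hl
    have h2 : upd i j k t x l = x l := by
      simp [upd, hl.1, hl.2.1, hl.2.2]
    rw [h2]
  rw [key (upd i j k t x), key x, tr_upd hij hik hjk, h1]
  ring

/-- the elements of `K0` given by words, triples of the type `(i, i', j)` -/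
lemma wordA {i i' j : Fin n} (hi : a i = 1) (hi' : a i' = 1) (hj : a j = 2) (hii : i ≠ i')
    (w : List Bool) : ∃ g ∈ Subgroup.closure {om a i j, om a i' j}, ∀ x : Fin n → ZMod 5,
      act g x = upd i i' j (wa uA vA w (tr i i' j x)) x := by
  have hij : i ≠ j := by
    rintro rfl
    rw [hi] at hj
    exact absurd hj (by decide)
  have hij' : i' ≠ j := by
    rintro rfl
    rw [hi'] at hj
    exact absurd hj (by decide)
  induction w with
  | nil => exact ⟨1, one_mem _, fun x => by rw [act_one]; exact (upd_tr i i' j x).symm⟩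
  | cons b w ih =>
    obtain ⟨g, hg, h⟩ := ih
    cases b with
    | true =>
      refine ⟨om a i j * g, mul_mem (subset_closure (by simp)) hg, fun x => ?_⟩
      rw [act_mul, h, act_om hi hj]
      funext k
      by_cases h1 : k = i
      · subst h1
        simp [upd, wa, uA, hij.symm, hij'.symm, hii.symm, hii]
      by_cases h2 : k = i'
      · subst h2
        simp [upd, wa, uA, h1, hij']
      by_cases h3 : k = j
      · subst h3
        simp [upd, wa, uA, hij.symm, hij'.symm]
      · simp [upd, wa, h1, h2, h3]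
    | false =>
      refine ⟨om a i' j * g, mul_mem (subset_closure (by simp)) hg, fun x => ?_⟩
      rw [act_mul, h, act_om hi' hj]
      funext k
      by_cases h1 : k = i
      · subst h1
        simp [upd, wa, vA, hij, hii]
      by_cases h2 : k = i'
      · subst h2
        simp [upd, wa, vA, hij.symm, hij'.symm, hii.symm]
      by_cases h3 : k = j
      · subst h3
        simp [upd, wa, vA, hij.symm, hij'.symm, hii.symm]
      · simp [upd, wa, h1, h2, h3]

/-- the elements of `K0` given by words, triples of the type `(i, j, j')` -/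
lemma wordB {i j j' : Fin n} (hi : a i = 1) (hj : a j = 2) (hj' : a j' = 2) (hjj : j ≠ j')
    (w : List Bool) : ∃ g ∈ Subgroup.closure {om a i j, om a i j'}, ∀ x : Fin n → ZMod 5,
      act g x = upd i j j' (wa uB vB w (tr i j j' x)) x := by
  have hij : i ≠ j := by
    rintro rfl
    rw [hi] at hj
    exact absurd hj (by decide)
  have hij' : i ≠ j' := by
    rintro rfl
    rw [hi] at hj'
    exact absurd hj' (by decide)
  induction w with
  | nil => exact ⟨1, one_mem _, fun x => by rw [act_one]; exact (upd_tr i j j' x).symm⟩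
  | cons b w ih =>
    obtain ⟨g, hg, h⟩ := ih
    cases b with
    | true =>
      refine ⟨om a i j * g, mul_mem (subset_closure (by simp)) hg, fun x => ?_⟩
      rw [act_mul, h, act_om hi hj]
      funext k
      by_cases h1 : k = i
      · subst h1
        simp [upd, wa, uB, hij.symm, hij'.symm]
      by_cases h2 : k = j
      · subst h2
        simp [upd, wa, uB, h1, hij.symm]
      by_cases h3 : k = j'
      · subst h3
        simp [upd, wa, uB, hij'.symm, hjj.symm]
      · simp [upd, wa, h1, h2, h3]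
    | false =>
      refine ⟨om a i j' * g, mul_mem (subset_closure (by simp)) hg, fun x => ?_⟩
      rw [act_mul, h, act_om hi hj']
      funext k
      by_cases h1 : k = i
      · subst h1
        simp [upd, wa, vB, hij, hij'.symm, hjj.symm]
      by_cases h2 : k = j
      · subst h2
        simp [upd, wa, vB, hij.symm, hjj]
      by_cases h3 : k = j'
      · subst h3
        simp [upd, wa, vB, hij'.symm, hjj.symm]
      · simp [upd, wa, h1, h2, h3]

/-- descent -/
lemma descA {i i' j : Fin n} (hi : a i = 1) (hi' : a i' = 1) (hj : a j = 2) (hii : i ≠ i')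
    {x : Fin n → ZMod 5} (h1 : 2 ≤ nz (tr i i' j x)) (h2 : ¬ (nz (tr i i' j x) = 2 ∧
      x i * x i + x i' * x i' + 2 * (x j * x j) = 0)) :
    ∃ g ∈ K0 a, sup' (act g x) < sup' x := by
  have hij : i ≠ j := by
    rintro rfl
    rw [hi] at hj
    exact absurd hj (by decide)
  have hij' : i' ≠ j := by
    rintro rfl
    rw [hi'] at hj
    exact absurd hj (by decide)
  obtain ⟨w, -, hw⟩ := chkA (x i) (x i') (x j) h1 h2
  obtain ⟨g, hg, hgx⟩ := wordA (a := a) hi hi' hj hii w
  refine ⟨g, ?_, ?_⟩
  · have h3 : Subgroup.closure {om a i j, om a i' j} ≤ K0 a := by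
      rw [closure_le]
      rintro _ (rfl | rfl)
      · exact subset_closure ⟨i, j, hi, hj, rfl⟩
      · exact subset_closure ⟨i', j, hi', hj, rfl⟩
    exact h3 hg
  · rw [hgx]
    have h3 := sup'_upd hii hij hij' (wa uA vA w (tr i i' j x)) x
    have h4 : nz (wa uA vA w (tr i i' j x)) < nz (tr i i' j x) := hw
    omega

lemma descB {i j j' : Fin n} (hi : a i = 1) (hj : a j = 2) (hj' : a j' = 2) (hjj : j ≠ j')
    {x : Fin n → ZMod 5} (h1 : 2 ≤ nz (tr i j j' x)) (h2 : ¬ (nz (tr i j j' x) = 2 ∧
      x i * x i + 2 * (x j * x j) + 2 * (x j' * x j') = 0)) :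
    ∃ g ∈ K0 a, sup' (act g x) < sup' x := by
  have hij : i ≠ j := by
    rintro rfl
    rw [hi] at hj
    exact absurd hj (by decide)
  have hij' : i ≠ j' := by
    rintro rfl
    rw [hi] at hj'
    exact absurd hj' (by decide)
  obtain ⟨w, -, hw⟩ := chkB (x i) (x j) (x j') h1 h2
  obtain ⟨g, hg, hgx⟩ := wordB (a := a) hi hj hj' hjj w
  refine ⟨g, ?_, ?_⟩
  · have h3 : Subgroup.closure {om a i j, om a i j'} ≤ K0 a := by
      rw [closure_le]
      rintro _ (rfl | rfl)
      · exact subset_closure ⟨i, j, hi, hj, rfl⟩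
      · exact subset_closure ⟨i, j', hi, hj', rfl⟩
    exact h3 hg
  · rw [hgx]
    have h3 := sup'_upd hij hij' hjj (wa uB vB w (tr i j j' x)) x
    have h4 : nz (wa uB vB w (tr i j j' x)) < nz (tr i j j' x) := hw
    omega

end

end

end Vale.Agent.P240.R2.H406
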