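import Vale.Agent.P240.R2.H406.S1

/-!
`K0` is transitive on the anisotropic lines of a given class up to the coordinate lines; reflections
generate; the commutator subgroup lies in `K0`.
-/

set_option autoImplicit false
set_option linter.all false

namespace Vale.Agent.P240.R2.H406

open Matrix
open Vale.Agent.P240.R2.H145.EO

noncomputable section

section
variable {n : ℕ} {a : Fin n → ZMod 5}

lemma three : ∀ p q r : ZMod 5, p ≠ 0 → q ≠ 0 → r ≠ 0 → p * p + q * q = 0 → p * p + r * r = 0 →
    q * q + r * r = 0 → False := by decide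

lemma ne_of_val {i j : Fin n} (hi : a i = 1) (hj : a j = 2) : i ≠ j := by
  rintro rfl
  rw [hi] at hj
  exact absurd hj (by decide)

lemma nz_two {x y z : ZMod 5} (hx : x ≠ 0) (hy : y ≠ 0) : 2 ≤ nz (x, y, z) := by
  simp only [nz, if_neg hx, if_neg hy]
  omega

lemma nz_two' {x y z : ZMod 5} (hx : x ≠ 0) (hz : z ≠ 0) : 2 ≤ nz (x, y, z) := by
  simp only [nz, if_neg hx, if_neg hz]
  omega

lemma nz_two'' {x y z : ZMod 5} (hy : y ≠ 0) (hz : z ≠ 0) : 2 ≤ nz (x, y, z) := by
  simp only [nz, if_neg hy, if_neg hz]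
  omega

lemma nz_three {x y z : ZMod 5} (hx : x ≠ 0) (hy : y ≠ 0) (hz : z ≠ 0) : nz (x, y, z) ≠ 2 := by
  simp only [nz, if_neg hx, if_neg hy, if_neg hz]
  omega

/-- the form of a vector supported on three coordinates -/
lemma B_three {i j k : Fin n} (hij : i ≠ j) (hik : i ≠ k) (hjk : j ≠ k) {x : Fin n → ZMod 5}
    (h : ∀ l, l ≠ i → l ≠ j → l ≠ k → x l = 0) :
    B a x x = a i * x i * x i + a j * x j * x j + a k * x k * x k := by
  unfold B
  rw [← Finset.sum_subset (Finset.subset_univ ({i, j, k} : Finset (Fin n)))]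
  · rw [Finset.sum_insert (by simp [hij, hik]), Finset.sum_insert (by simp [hjk]),
      Finset.sum_singleton]
    ring
  · intro l _ hl
    simp only [Finset.mem_insert, Finset.mem_singleton, not_or] at hl
    rw [h l hl.1 hl.2.1 hl.2.2]
    ring

/-- one step -/
lemma step (hn : 3 ≤ n) (hv : ∀ i, a i = 1 ∨ a i = 2) (h1 : ∃ i, a i = 1) (h2 : ∃ j, a j = 2)
    {x : Fin n → ZMod 5} (hx : B a x x ≠ 0) (h : ¬ ∃ i, ∀ l, l ≠ i → x l = 0) :
    ∃ g ∈ K0 a, sup' (act g x) < sup' x := by
  push Not at h
  by_cases hm : ∃ i j, a i = 1 ∧ a j = 2 ∧ x i ≠ 0 ∧ x j ≠ 0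
  · obtain ⟨i, j, hi, hj, hxi, hxj⟩ := hm
    have hij := ne_of_val hi hj
    obtain ⟨l, hli, hlj, hl⟩ : ∃ l, l ≠ i ∧ l ≠ j ∧ (x l = 0 → ∀ k, k ≠ i → k ≠ j → x k = 0) := by
      by_cases h3 : ∃ l, l ≠ i ∧ l ≠ j ∧ x l ≠ 0
      · obtain ⟨l, h4, h5, h6⟩ := h3
        exact ⟨l, h4, h5, fun h7 => absurd h7 h6⟩
      · push Not at h3
        have h4 : ∃ l, l ∉ ({i, j} : Finset (Fin n)) := by
          by_contra h5
          push Not at h5
          have h6 : Finset.univ ⊆ ({i, j} : Finset (Fin n)) := fun l _ => h5 l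
          have h7 := Finset.card_le_card h6
          rw [Finset.card_univ, Fintype.card_fin, Finset.card_pair hij] at h7
          omega
        obtain ⟨l, hl⟩ := h4
        simp only [Finset.mem_insert, Finset.mem_singleton, not_or] at hl
        exact ⟨l, hl.1, hl.2, fun _ k h5 h6 => h3 k h5 h6⟩
    rcases hv l with hal | hal
    · -- triple `(i, l, j)`
      refine descA hi hal hj hli.symm (nz_two' hxi hxj) ?_
      rintro ⟨h5, h6⟩
      have hxl : x l = 0 := by
        by_contra h7
        exact nz_three hxi h7 hxj h5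
      apply hx
      rw [B_three hli.symm hij hlj (fun k k1 k2 k3 => hl hxl k k1 k3), hi, hal, hj]
      linear_combination h6
    · refine descB hi hj hal hlj.symm (nz_two hxi hxj) ?_
      rintro ⟨h5, h6⟩
      have hxl : x l = 0 := by
        by_contra h7
        exact nz_three hxi hxj h7 h5
      apply hx
      rw [B_three hij hli.symm hlj.symm (fun k k1 k2 k3 => hl hxl k k1 k2), hi, hal, hj]
      linear_combination h6
  · push Not at hm
    -- all nonzero coordinates are in one class
    have hex : ∃ i, x i ≠ 0 := by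
      by_contra h3
      push Not at h3
      apply hx
      have : x = 0 := funext h3
      rw [this]
      unfold B
      simp
    obtain ⟨i, hxi⟩ := hex
    have hcl : ∀ l, x l ≠ 0 → a l = a i := by
      intro l hl
      rcases hv i with h3 | h3 <;> rcases hv l with h4 | h4
      · rw [h3, h4]
      · exact absurd (hm i l h3 h4 hxi) hl
      · exact absurd hxi (fun h5 => hm l i h4 h3 hl |> h5)
      · rw [h3, h4]
    obtain ⟨k, k', hkk, hxk, hxk', hq⟩ : ∃ k k', k ≠ k' ∧ x k ≠ 0 ∧ x k' ≠ 0 ∧
        x k * x k + x k' * x k' ≠ 0 := by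
      obtain ⟨j, hji, hxj⟩ := h i
      by_cases h3 : ∃ l, l ≠ i ∧ l ≠ j ∧ x l ≠ 0
      · obtain ⟨l, h4, h5, h6⟩ := h3
        by_contra h7
        push Not at h7
        exact three _ _ _ hxi hxj h6 (h7 i j hji.symm hxi hxj) (h7 i l h4.symm hxi h6)
          (h7 j l h5.symm hxj h6)
      · push Not at h3
        refine ⟨i, j, hji.symm, hxi, hxj, fun h4 => hx ?_⟩
        have h5 : B a x x = a i * x i * x i + a j * x j * x j := by
          unfold B
          rw [← Finset.sum_subset (Finset.subset_univ ({i, j} : Finset (Fin n)))]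
          · rw [Finset.sum_pair hji.symm]
          · intro l _ hl
            simp only [Finset.mem_insert, Finset.mem_singleton, not_or] at hl
            rw [h3 l hl.1 hl.2]
            ring
        rw [h5, hcl j hxj]
        linear_combination (a i) * h4
    have hak : a k = a k' := by rw [hcl k hxk, hcl k' hxk']
    rcases hv k with h3 | h3
    · obtain ⟨j, hj⟩ := h2
      have hxj : x j = 0 := by
        by_contra h4
        have h5 := hcl j h4
        rw [← hcl k hxk, hj, h3] at h5
        exact absurd h5 (by decide)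
      refine descA h3 (hak ▸ h3) hj hkk (nz_two hxk hxk') ?_
      rintro ⟨-, h6⟩
      rw [hxj] at h6
      apply hq
      linear_combination h6
    · obtain ⟨j, hj⟩ := h1
      have hxj : x j = 0 := by
        by_contra h4
        have h5 := hcl j h4
        rw [← hcl k hxk, hj, h3] at h5
        exact absurd h5 (by decide)
      refine descB hj h3 (hak ▸ h3) hkk (nz_two'' hxk hxk') ?_
      rintro ⟨-, h6⟩
      rw [hxj] at h6
      apply hq
      have h7 : (2 : ZMod 5) * (x k * x k + x k' * x k') = 0 := by linear_combination h6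
      exact (mul_eq_zero.1 h7).resolve_left (by decide)

/-- **every anisotropic vector is moved to a coordinate line** -/
theorem to_single (hn : 3 ≤ n) (hv : ∀ i, a i = 1 ∨ a i = 2) (h1 : ∃ i, a i = 1)
    (h2 : ∃ j, a j = 2) : ∀ (m : ℕ) (x : Fin n → ZMod 5), sup' x = m → B a x x ≠ 0 →
      ∃ g ∈ K0 a, ∃ (i : Fin n) (c : ZMod 5), c ≠ 0 ∧ act g x = c • Pi.single i 1 := by
  intro m
  induction m using Nat.strong_induction_on with
  | _ m ih =>
    intro x hxm hx
    by_cases h : ∃ i, ∀ l, l ≠ i → x l = 0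
    · obtain ⟨i, hi⟩ := h
      have hxe : x = x i • Pi.single i 1 := by
        funext l
        by_cases hl : l = i
        · subst hl; simp
        · rw [hi l hl]; simp [hl]
      refine ⟨1, one_mem _, i, x i, ?_, by rw [act_one]; exact hxe⟩
      intro h0
      apply hx
      rw [hxe, h0, zero_smul]
      unfold B
      simp
    · obtain ⟨g, hg, hlt⟩ := step hn hv h1 h2 hx h
      obtain ⟨g', hg', i, c, hc, hgx⟩ := ih _ (hxm ▸ hlt) (act g x) rfl (by rwa [act_B])
      exact ⟨g' * g, mul_mem hg' hg, i, c, hc, by rw [act_mul, hgx]⟩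

lemma act_rfl'_fix {v x : Fin n → ZMod 5} (h : B a v x = 0) : act (rfl' a v) x = x := by
  by_cases hv : B a v v ≠ 0
  · rw [act_rfl' hv, h, mul_zero, zero_div, zero_smul, sub_zero]
  · rw [rfl', dif_neg hv, act_one]

lemma act_rfl'_sub {u v : Fin n → ZMod 5} (huv : B a u u = B a v v)
    (h : B a (u - v) (u - v) ≠ 0) : act (rfl' a (u - v)) u = v := by
  have h3 : 2 * B a (u - v) u = B a (u - v) (u - v) := by
    rw [B_sub_left, B_sub_left, B_sub_right, B_sub_right, B_comm v u]
    linear_combination huv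
  rw [act_rfl' h, h3, div_self h, one_smul]; abel

lemma act_rfl'_add {u v : Fin n → ZMod 5} (huv : B a u u = B a v v)
    (h : B a (u + v) (u + v) ≠ 0) : act (rfl' a (u + v)) u = -v := by
  have h3 : 2 * B a (u + v) u = B a (u + v) (u + v) := by
    rw [B_add_left, B_add_left, B_add_right, B_add_right, B_comm v u]
    linear_combination huv
  rw [act_rfl' h, h3, div_self h, one_smul]; abel

/-- **reflections generate** -/
theorem refl_gen (ha : ∀ i, a i ≠ 0) :
    Subgroup.closure {g | ∃ v, B a v v ≠ 0 ∧ g = rfl' a v} = (⊤ : Subgroup ↥(OD a)) := by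
  rw [eq_top_iff]
  rintro g -
  set R := Subgroup.closure {g | ∃ v, B a v v ≠ 0 ∧ g = rfl' a v} with hR
  have hmem : ∀ v, B a v v ≠ 0 → rfl' a v ∈ R := fun v hv => Subgroup.subset_closure ⟨v, hv, rfl⟩
  have key : ∀ k : ℕ, k ≤ n → ∃ r ∈ R, ∀ i : Fin n, i.val < k →
      act (r * g) (Pi.single i 1) = Pi.single i 1 := by
    intro k
    induction k with
    | zero => exact fun _ => ⟨1, one_mem _, fun i hi => absurd hi (Nat.not_lt_zero _)⟩
    | succ k ih =>
      intro hk
      obtain ⟨r, hr, h⟩ := ih (by omega)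
      set e : Fin n → ZMod 5 := Pi.single ⟨k, hk⟩ 1 with he
      set v := act (r * g) e with hv
      have hvv : B a v v = B a e e := act_B _ _ _
      have hee : B a e e ≠ 0 := by rw [he, B_ee]; exact ha _
      have hiv : ∀ i : Fin n, i.val < k → B a v (Pi.single i 1) = 0 := by
        intro i hi
        rw [← h i hi, hv, act_B, B_comm, B_e, he, Pi.single_eq_of_ne, mul_zero]
        intro h3
        rw [h3] at hi
        exact lt_irrefl _ hi
      have hie : ∀ i : Fin n, i.val < k → B a e (Pi.single i 1) = 0 := by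
        intro i hi
        rw [he, B_e, Pi.single_eq_of_ne, mul_zero]
        intro h3
        rw [← h3] at hi
        exact lt_irrefl _ hi
      have hlast : ∀ s : ↥(OD a), s ∈ R → act s v = e →
          (∀ i : Fin n, i.val < k → act s (Pi.single i 1) = Pi.single i 1) →
          ∃ r ∈ R, ∀ i : Fin n, i.val < k + 1 → act (r * g) (Pi.single i 1) = Pi.single i 1 := by
        intro s hs h1 h2
        refine ⟨s * r, mul_mem hs hr, fun i hi => ?_⟩
        rw [mul_assoc, act_mul]
        rcases Nat.lt_succ_iff_lt_or_eq.1 hi with h3 | h3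
        · rw [h i h3, h2 i h3]
        · have h4 : i = ⟨k, hk⟩ := Fin.ext h3
          rw [h4]
          exact h1
      rcases exists_pm (by decide) (by rw [hvv]; exact hee) hvv with h4 | h4
      · refine hlast (rfl' a (v - e)) (hmem _ h4) (act_rfl'_sub hvv h4) fun i hi => act_rfl'_fix ?_
        rw [B_sub_left, hiv i hi, hie i hi, sub_zero]
      · refine hlast (rfl' a e * rfl' a (v + e)) (mul_mem (hmem _ hee) (hmem _ h4)) ?_ ?_
        · rw [act_mul, act_rfl'_add hvv h4, he, act_rfl'_e (ha _)]
          funext l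
          by_cases hl : l = ⟨k, hk⟩
          · subst hl; simp
          · simp [hl]
        · intro i hi
          rw [act_mul, act_rfl'_fix (v := v + e) (by rw [B_add_left, hiv i hi, hie i hi, add_zero]),
            act_rfl'_fix (hie i hi)]
  obtain ⟨r, hr, h⟩ := key n le_rfl
  have h1 : r * g = 1 := by
    refine act_ext fun x => ?_
    rw [act_one]
    have hx : x = ∑ i, x i • (Pi.single i 1 : Fin n → ZMod 5) := by
      funext l
      simp [Finset.sum_apply, Pi.single_apply]
    have hlin : ∀ y : Fin n → ZMod 5, act (r * g) y = Matrix.mulVecLin (r * g).1.1 y := fun _ => rfl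
    rw [hlin, hx, map_sum]
    refine Finset.sum_congr rfl fun i _ => ?_
    rw [map_smul, ← hlin, h i i.2]
  rw [eq_inv_of_mul_eq_one_right h1]
  exact inv_mem hr

/-- `om i j` is inverted by the sign changes at `i` and at `j` -/
lemma om_conj {i j : Fin n} (hi : a i = 1) (hj : a j = 2) (J : Finset (Fin n)) :
    sg a J * om a i j * (sg a J)⁻¹ = if (i ∈ J ↔ j ∈ J) then om a i j else (om a i j)⁻¹ := by
  have hij := ne_of_val hi hj
  have h5 : (5 : ZMod 5) = 0 := by decide
  rw [sg_inv]
  split_ifs with h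
  · refine act_ext fun x => ?_
    rw [act_mul, act_mul, act_sg, act_om hi hj, act_sg, act_om hi hj]
    funext k
    by_cases h1 : k = i
    · subst h1
      by_cases hk : k ∈ J
      · simp [hk, h.1 hk]; ring
      · simp [hk, mt h.2 hk]
    by_cases h2 : k = j
    · subst h2
      by_cases hk : k ∈ J
      · simp [hk, h.2 hk, h1]; ring
      · simp [hk, mt h.1 hk, h1]
    · by_cases hk : k ∈ J <;> simp [hk, h1, h2]
  · rw [eq_inv_iff_mul_eq_one]
    refine act_ext fun x => ?_
    rw [act_one, act_mul, act_mul, act_mul, act_om hi hj, act_sg, act_om hi hj, act_sg]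
    funext k
    have h' : (i ∈ J ∧ j ∉ J) ∨ (i ∉ J ∧ j ∈ J) := by tauto
    rcases h' with ⟨hiJ, hjJ⟩ | ⟨hiJ, hjJ⟩
    · by_cases h1 : k = i
      · subst h1
        simp [hiJ, hjJ, hij.symm]
        linear_combination (0 : ZMod 5) * h5
      by_cases h2 : k = j
      · subst h2
        simp [hiJ, hjJ, h1]
        linear_combination (0 : ZMod 5) * h5
      · by_cases hk : k ∈ J <;> simp [hk, h1, h2]
    · by_cases h1 : k = i
      · subst h1
        simp [hiJ, hjJ, hij.symm]
        linear_combination (0 : ZMod 5) * h5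
      by_cases h2 : k = j
      · subst h2
        simp [hiJ, hjJ, h1]
        linear_combination (0 : ZMod 5) * h5
      · by_cases hk : k ∈ J <;> simp [hk, h1, h2]

end

end

end Vale.Agent.P240.R2.H406
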