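import Vale.Agent.P240.R2.H406.S2
import Vale.Agent.P240.R2.H406.PDefs

/-!
The commutator subgroup of `OD a` is contained in `K0 a`.
-/

set_option autoImplicit false
set_option linter.all false

namespace Vale.Agent.P240.R2.H406

open Matrix
open scoped commutatorElement
open Vale.Agent.P240.R2.H145.EO

noncomputable section

section
variable {n : ℕ} {a : Fin n → ZMod 5}

/-- the sign changes, as a subgroup -/
def Sg (a : Fin n → ZMod 5) : Subgroup ↥(OD a) where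
  carrier := {g | ∃ J, g = sg a J}
  mul_mem' := by
    rintro _ _ ⟨J, rfl⟩ ⟨J', rfl⟩
    exact ⟨_, sg_mul J J'⟩
  one_mem' := ⟨∅, sg_empty.symm⟩
  inv_mem' := by
    rintro _ ⟨J, rfl⟩
    exact ⟨J, sg_inv J⟩

lemma ne_zero_of_val (hv : ∀ i, a i = 1 ∨ a i = 2) (i : Fin n) : a i ≠ 0 := by
  rcases hv i with h | h <;> rw [h] <;> decide

lemma sg_norm (J : Finset (Fin n)) : ∀ g ∈ K0 a, sg a J * g * (sg a J)⁻¹ ∈ K0 a := by
  intro g hg
  induction hg using Subgroup.closure_induction with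
  | mem x hx =>
    obtain ⟨i, j, hi, hj, rfl⟩ := hx
    have h1 : om a i j ∈ K0 a := Subgroup.subset_closure ⟨i, j, hi, hj, rfl⟩
    rw [om_conj hi hj]
    split_ifs
    · exact h1
    · exact inv_mem h1
  | one => simp
  | mul x y _ _ hx hy =>
    have : sg a J * (x * y) * (sg a J)⁻¹ = (sg a J * x * (sg a J)⁻¹) * (sg a J * y * (sg a J)⁻¹) := by
      group
    rw [this]
    exact mul_mem hx hy
  | inv x _ hx =>
    have : sg a J * x⁻¹ * (sg a J)⁻¹ = (sg a J * x * (sg a J)⁻¹)⁻¹ := by group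
    rw [this]
    exact inv_mem hx

/-- the product of `K0` and the sign changes is everything -/
lemma K0_sg (hn : 3 ≤ n) (hv : ∀ i, a i = 1 ∨ a i = 2) (h1 : ∃ i, a i = 1) (h2 : ∃ j, a j = 2)
    (g : ↥(OD a)) : ∃ k ∈ K0 a, ∃ J, g = k * sg a J := by
  have hmul : ∀ g h : ↥(OD a), (∃ k ∈ K0 a, ∃ J, g = k * sg a J) →
      (∃ k ∈ K0 a, ∃ J, h = k * sg a J) → ∃ k ∈ K0 a, ∃ J, g * h = k * sg a J := by
    rintro _ _ ⟨k, hk, J, rfl⟩ ⟨k', hk', J', rfl⟩
    refine ⟨k * (sg a J * k' * (sg a J)⁻¹), mul_mem hk (sg_norm J k' hk'), symmDiff J J', ?_⟩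
    rw [← sg_mul]
    group
  have hg : g ∈ Subgroup.closure {g | ∃ v, B a v v ≠ 0 ∧ g = rfl' a v} := by
    rw [refl_gen (ne_zero_of_val hv)]
    trivial
  have hr : ∀ v, B a v v ≠ 0 → ∃ k ∈ K0 a, ∃ J, rfl' a v = k * sg a J := by
    intro v hvv
    obtain ⟨g, hg, i, c, hc, hgv⟩ := to_single hn hv h1 h2 _ v rfl hvv
    refine ⟨g⁻¹ * (sg a {i} * g * (sg a {i})⁻¹), mul_mem (inv_mem hg) (sg_norm {i} g hg), {i}, ?_⟩
    have h3 : g * rfl' a v * g⁻¹ = sg a {i} := by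
      rw [rfl'_conj, hgv, rfl'_smul hc, rfl'_e (ne_zero_of_val hv i)]
    have h4 : rfl' a v = g⁻¹ * sg a {i} * g := by
      rw [← h3]
      group
    rw [h4]
    group
  induction hg using Subgroup.closure_induction with
  | mem x hx =>
    obtain ⟨v, hvv, rfl⟩ := hx
    exact hr v hvv
  | one => exact ⟨1, one_mem _, ∅, by rw [sg_empty, mul_one]⟩
  | mul x y _ _ hx hy => exact hmul x y hx hy
  | inv x _ hx =>
    obtain ⟨k, hk, J, rfl⟩ := hx
    refine ⟨sg a J * k⁻¹ * (sg a J)⁻¹, sg_norm J _ (inv_mem hk), J, ?_⟩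
    rw [_root_.mul_inv_rev, sg_inv]
    have := sg_mul_self (a := a) J
    calc sg a J * k⁻¹ = sg a J * k⁻¹ * 1 := by rw [mul_one]
      _ = sg a J * k⁻¹ * (sg a J * sg a J) := by rw [this]
      _ = _ := by group

/-- **the commutator subgroup** -/
theorem comm_le (hn : 3 ≤ n) (hv : ∀ i, a i = 1 ∨ a i = 2) (h1 : ∃ i, a i = 1)
    (h2 : ∃ j, a j = 2) : commutator ↥(OD a) ≤ K0 a := by
  rw [commutator_def, Subgroup.commutator_le]
  rintro g - h -
  obtain ⟨k, hk, J, rfl⟩ := K0_sg hn hv h1 h2 g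
  obtain ⟨k', hk', J', rfl⟩ := K0_sg hn hv h1 h2 h
  set s := sg a J with hs
  set s' := sg a J' with hs'
  have hss : s * s' = s' * s := sg_comm J J'
  have hn1 : ∀ g ∈ K0 a, s * g * s⁻¹ ∈ K0 a := sg_norm J
  have hn2 : ∀ g ∈ K0 a, s' * g * s'⁻¹ ∈ K0 a := sg_norm J'
  have e : ⁅k * s, k' * s'⁆ = k * (s * k' * s⁻¹) * (s' * k⁻¹ * s'⁻¹) * k'⁻¹ := by
    rw [commutatorElement_def]
    calc k * s * (k' * s') * (k * s)⁻¹ * (k' * s')⁻¹
        = k * (s * k' * s⁻¹) * (s * s' * s⁻¹) * k⁻¹ * s'⁻¹ * k'⁻¹ := by group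
      _ = k * (s * k' * s⁻¹) * (s' * s * s⁻¹) * k⁻¹ * s'⁻¹ * k'⁻¹ := by rw [hss]
      _ = _ := by group
  rw [e]
  exact mul_mem (mul_mem (mul_mem hk (hn1 _ hk')) (hn2 _ (inv_mem hk))) (inv_mem hk')

/-- the reflection in `e_i - e_l` exchanges the coordinates -/
lemma sg_pair {i l : Fin n} (hi : a i = a l) (h0 : a i ≠ 0) (hil : i ≠ l) :
    sg a {i} * sg a {l} ∈ commutator ↥(OD a) := by
  set v : Fin n → ZMod 5 := Pi.single i 1 - Pi.single l 1 with hv
  have hvv : B a v v ≠ 0 := by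
    rw [hv, B_sub_left, B_e, B_e]
    simp only [Pi.sub_apply, Pi.single_eq_same, Pi.single_eq_of_ne hil, Pi.single_eq_of_ne hil.symm]
    rw [← hi]
    have : a i * (1 - 0) - a i * (0 - 1) = 2 * a i := by ring
    rw [this]
    exact mul_ne_zero (by decide) h0
  have h1 : act (rfl' a v) (Pi.single i 1) = Pi.single l 1 :=
    act_rfl'_sub (by rw [B_ee, B_ee, hi]) hvv
  have h2 : rfl' a v * sg a {i} * (rfl' a v)⁻¹ = sg a {l} := by
    rw [← rfl'_e h0, rfl'_conj, h1, rfl'_e (hi ▸ h0)]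
  rw [← h2]
  have h3 : sg a {i} * (rfl' a v * sg a {i} * (rfl' a v)⁻¹) =
      ⁅sg a {i}, rfl' a v⁆ := by
    rw [commutatorElement_def, sg_inv]
    group
  rw [h3]
  exact Subgroup.commutator_mem_commutator (Subgroup.mem_top _) (Subgroup.mem_top _)

lemma sq_iff : ∀ c x : ZMod 5, c ≠ 0 → (IsSquare (c * (c * x)) ↔ IsSquare x) := by decide

lemma class_iff (hv : ∀ i, a i = 1 ∨ a i = 2) {i l : Fin n} (h : IsSquare (a i) ↔ IsSquare (a l)) :
    a i = a l := by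
  have h1 : IsSquare (1 : ZMod 5) := by decide
  have h2 : ¬ IsSquare (2 : ZMod 5) := by decide
  rcases hv i with h3 | h3 <;> rcases hv l with h4 | h4 <;> rw [h3, h4] at h ⊢
  · exact absurd (h.1 h1) h2
  · exact absurd (h.2 h1) h2

theorem stmtGen : StmtGen := by
  intro n a hn hv h1 h2
  refine ⟨comm_le hn hv h1 h2, fun x hx => to_single hn hv h1 h2 _ x rfl hx, ?_⟩
  intro x hx i hi
  obtain ⟨g, hg, l, c, hc, hgx⟩ := to_single hn hv h1 h2 _ x rfl hx
  have h3 : g * rfl' a x * g⁻¹ = sg a {l} := by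
    rw [rfl'_conj, hgx, rfl'_smul hc, rfl'_e (ne_zero_of_val hv l)]
  have h4 : rfl' a x = g⁻¹ * sg a {l} * g := by
    rw [← h3]
    group
  have h5 : B a x x = c * (c * a l) := by
    rw [← act_B g x x, hgx, B_smul_left, B_smul_right, B_ee]
  have h6 : a l = a i := by
    apply class_iff hv
    rw [← hi, h5]
    exact (sq_iff c (a l) hc).symm
  have h7 : rfl' a x * sg a {i} = ⁅g⁻¹, sg a {l}⁆ * (sg a {l} * sg a {i}) := by
    rw [h4, commutatorElement_def, sg_inv, inv_inv]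
    calc g⁻¹ * sg a {l} * g * sg a {i} = g⁻¹ * sg a {l} * g * 1 * sg a {i} := by rw [mul_one]
      _ = g⁻¹ * sg a {l} * g * (sg a {l} * sg a {l}) * sg a {i} := by rw [sg_mul_self]
      _ = _ := by group
  rw [h7]
  refine mul_mem (Subgroup.commutator_mem_commutator (Subgroup.mem_top _) (Subgroup.mem_top _)) ?_
  by_cases hli : l = i
  · rw [hli, sg_mul_self]
    exact one_mem _
  · exact sg_pair h6 (ne_zero_of_val hv l) hli

end

end

end Vale.Agent.P240.R2.H406
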