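import Vale.Agent.P240.R2.H406.S3

/-!
The center of `OD a`, the kernel of `Phi`.
-/

set_option autoImplicit false
set_option linter.all false

namespace Vale.Agent.P240.R2.H406

open Matrix
open scoped commutatorElement
open Vale.Agent.P240.R2.H145.EO
open Vale.Agent.P240.R2.H401.D (POD SD0 SD0_normal)

noncomputable section

section
variable {n : ℕ} {a : Fin n → ZMod 5}

/-- two isometries that agree on the unit vectors -/
lemma act_ext_e {g h : ↥(OD a)}
    (H : ∀ i, act g (Pi.single i 1) = act h (Pi.single i 1)) : g = h := by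
  refine act_ext fun x => ?_
  have hx : x = ∑ i, x i • (Pi.single i 1 : Fin n → ZMod 5) := by
    funext l
    simp [Finset.sum_apply, Pi.single_apply]
  have hg : ∀ (g : ↥(OD a)) (y : Fin n → ZMod 5), act g y = Matrix.mulVecLin g.1.1 y :=
    fun _ _ => rfl
  rw [hg, hg, hx, map_sum, map_sum]
  refine Finset.sum_congr rfl fun i _ => ?_
  rw [map_smul, map_smul, ← hg, ← hg, H]

lemma om_e {i j : Fin n} (hi : a i = 1) (hj : a j = 2) {l : Fin n} (h1 : l ≠ i) (h2 : l ≠ j) :
    act (om a i j) (Pi.single l 1) = Pi.single l 1 := by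
  rw [act_om hi hj]
  funext k
  by_cases h3 : k = i
  · subst h3; simp [h1.symm, h2.symm]
  by_cases h4 : k = j
  · subst h4; simp [h1.symm, h2.symm]
  · simp [h3, h4]

lemma om_e1 {i j : Fin n} (hi : a i = 1) (hj : a j = 2) :
    act (om a i j) (Pi.single i 1) = (2 : ZMod 5) • Pi.single i 1 + (1 : ZMod 5) • Pi.single j 1 := by
  have hij := ne_of_val hi hj
  rw [act_om hi hj]
  funext k
  by_cases h3 : k = i
  · subst h3; simp [hij, hij.symm]
  by_cases h4 : k = j
  · subst h4; simp [h3, hij.symm]
  · simp [h3, h4]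

lemma om_e2 {i j : Fin n} (hi : a i = 1) (hj : a j = 2) :
    act (om a i j) (Pi.single j 1) = (3 : ZMod 5) • Pi.single i 1 + (2 : ZMod 5) • Pi.single j 1 := by
  have hij := ne_of_val hi hj
  rw [act_om hi hj]
  funext k
  by_cases h3 : k = i
  · subst h3; simp [hij, hij.symm]
  by_cases h4 : k = j
  · subst h4; simp [h3, hij]
  · simp [h3, h4]

lemma om_three {i j : Fin n} (hi : a i = 1) (hj : a j = 2) : om a i j * om a i j * om a i j = 1 := by
  have hij := ne_of_val hi hj
  have h5 : (5 : ZMod 5) = 0 := by decide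
  refine act_ext fun x => ?_
  rw [act_one, act_mul, act_mul, act_om hi hj, act_om hi hj, act_om hi hj]
  funext k
  by_cases h3 : k = i
  · subst h3
    simp [hij, hij.symm]
    linear_combination (5 * x k + 9 * x j) * h5
  by_cases h4 : k = j
  · subst h4
    simp [h3, hij, hij.symm]
    linear_combination (3 * x i + 5 * x k) * h5
  · simp [h3, h4]

lemma om_inv {i j : Fin n} (hi : a i = 1) (hj : a j = 2) : (om a i j)⁻¹ = om a i j * om a i j :=
  inv_eq_of_mul_eq_one_left (om_three hi hj)

lemma om_inv_e1 {i j : Fin n} (hi : a i = 1) (hj : a j = 2) :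
    act (om a i j)⁻¹ (Pi.single i 1) =
      (2 : ZMod 5) • Pi.single i 1 + (4 : ZMod 5) • Pi.single j 1 := by
  rw [om_inv hi hj, act_mul, om_e1 hi hj, act_add, act_smul, act_smul, om_e1 hi hj, om_e2 hi hj]
  funext k
  have h5 : (5 : ZMod 5) = 0 := by decide
  simp only [Pi.add_apply, Pi.smul_apply, smul_eq_mul]
  linear_combination (Pi.single i 1 : Fin n → ZMod 5) k * h5

lemma om_inv_e2 {i j : Fin n} (hi : a i = 1) (hj : a j = 2) :
    act (om a i j)⁻¹ (Pi.single j 1) =
      (2 : ZMod 5) • Pi.single i 1 + (2 : ZMod 5) • Pi.single j 1 := by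
  rw [om_inv hi hj, act_mul, om_e2 hi hj, act_add, act_smul, act_smul, om_e1 hi hj, om_e2 hi hj]
  funext k
  have h5 : (5 : ZMod 5) = 0 := by decide
  simp only [Pi.add_apply, Pi.smul_apply, smul_eq_mul]
  linear_combination (2 * (Pi.single i 1 : Fin n → ZMod 5) k + (Pi.single j 1 : Fin n → ZMod 5) k) * h5

lemma mem_SD0_of {g : ↥(OD a)} (h : g ∈ commutator ↥(OD a)) : g ∈ SD0 a := by
  show (QuotientGroup.mk' (Subgroup.center ↥(OD a))) g ∈ commutator (POD a)
  have h1 : (commutator ↥(OD a)).map (QuotientGroup.mk' (Subgroup.center ↥(OD a))) ≤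
      commutator (POD a) := by
    rw [commutator_def, commutator_def, Subgroup.map_commutator]
    exact Subgroup.commutator_mono le_top le_top
  exact h1 ⟨g, h, rfl⟩

/-- the elements of the simple group -/
def pi' (g : ↥(OD a)) (h : g ∈ SD0 a) : Lam a := ⟨QuotientGroup.mk' (Subgroup.center ↥(OD a)) g, h⟩

lemma pi'_mul {g h : ↥(OD a)} (hg : g ∈ SD0 a) (hh : h ∈ SD0 a) :
    pi' g hg * pi' h hh = pi' (g * h) (mul_mem hg hh) := rfl

lemma pi'_eq {g h : ↥(OD a)} (hg : g ∈ SD0 a) (hh : h ∈ SD0 a) :
    pi' g hg = pi' h hh ↔ h⁻¹ * g ∈ Subgroup.center ↥(OD a) := by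
  rw [← Subtype.coe_inj]
  show (QuotientGroup.mk g : POD a) = QuotientGroup.mk h ↔ _
  rw [eq_comm, QuotientGroup.eq]

lemma Phi_pi (g : ↥(OD a)) {u : ↥(OD a)} (hu : u ∈ SD0 a) :
    Phi a g (pi' u hu) = pi' (g * u * g⁻¹) ((SD0_normal a).conj_mem u hu g) := by
  apply Subtype.ext
  show ((MulAut.conjNormal (QuotientGroup.mk' (Subgroup.center ↥(OD a)) g)) (pi' u hu) : POD a) = _
  rw [MulAut.conjNormal_apply]
  rfl

lemma exists_pi (l : Lam a) : ∃ (g : ↥(OD a)) (h : g ∈ SD0 a), pi' g h = l := by
  obtain ⟨x, hx⟩ := l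
  obtain ⟨g, rfl⟩ := QuotientGroup.mk'_surjective _ x
  exact ⟨g, hx, rfl⟩

/-- conjugation by an element of the simple group -/
lemma Phi_conj {u : ↥(OD a)} (hu : u ∈ SD0 a) : Phi a u = MulAut.conj (pi' u hu) := by
  refine MulEquiv.ext fun l => ?_
  obtain ⟨g, h, rfl⟩ := exists_pi l
  rw [Phi_pi, MulAut.conj_apply]
  rfl

end

section
variable {n : ℕ} {a : Fin n → ZMod 5} (hP : PNum a)
include hP

lemma three_le : 3 ≤ n := by
  have h1 := hP.one
  have h2 := Finset.card_le_univ (Finset.univ.filter fun i => a i = 1)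
  rw [Fintype.card_fin] at h2
  omega

lemma exists_one : ∃ i, a i = 1 := by
  have h1 := hP.one
  obtain ⟨i, hi⟩ : (Finset.univ.filter fun i => a i = 1).Nonempty := by
    rw [← Finset.card_pos]; omega
  exact ⟨i, (Finset.mem_filter.1 hi).2⟩

lemma exists_two : ∃ i, a i = 2 := by
  have h1 := hP.two
  obtain ⟨i, hi⟩ : (Finset.univ.filter fun i => a i = 2).Nonempty := by
    rw [← Finset.card_pos]; omega
  exact ⟨i, (Finset.mem_filter.1 hi).2⟩

/-- many indices of each class -/
lemma exists_cls (c : ZMod 5) (hc : c = 1 ∨ c = 2) (J : Finset (Fin n)) (hJ : J.card ≤ 3) :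
    ∃ i, a i = c ∧ i ∉ J := by
  have h : 4 ≤ (Finset.univ.filter fun i => a i = c).card := by
    rcases hc with rfl | rfl
    · exact hP.one
    · exact hP.two
  by_contra h1
  push Not at h1
  have h2 : (Finset.univ.filter fun i => a i = c) ⊆ J := fun i hi => h1 i (Finset.mem_filter.1 hi).2
  have h3 := Finset.card_le_card h2
  omega

lemma om_mem {i j : Fin n} (hi : a i = 1) (hj : a j = 2) : om a i j ∈ commutator ↥(OD a) := by
  have hij := ne_of_val hi hj
  rw [om, rfl'_e (by rw [hi]; decide)]
  have h1 : B a ((2 : ZMod 5) • Pi.single i 1 - Pi.single j 1)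
      ((2 : ZMod 5) • Pi.single i 1 - Pi.single j 1) = 1 := by
    rw [B_sub_left, B_smul_left, B_e, B_e, hi, hj]
    simp [hij, hij.symm]
    decide
  refine (stmtGen n a (three_le hP) hP.val (exists_one hP) (exists_two hP)).2.2 _ ?_ i ?_
  · rw [h1]; decide
  · rw [h1, hi]

lemma om_mem0 {i j : Fin n} (hi : a i = 1) (hj : a j = 2) : om a i j ∈ SD0 a :=
  mem_SD0_of (om_mem hP hi hj)

/-- an isometry that commutes with all `om i j` is a scalar -/
lemma eq_scalar {g : ↥(OD a)} (h : ∀ i j, a i = 1 → a j = 2 → g * om a i j = om a i j * g) :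
    g = 1 ∨ g = sg a Finset.univ := by
  -- `g` preserves the planes
  have hpl : ∀ i j, a i = 1 → a j = 2 → ∀ k, k ≠ i → k ≠ j →
      (act g (Pi.single i 1)) k = 0 ∧ (act g (Pi.single j 1)) k = 0 := by
    intro i j hi hj k hki hkj
    have h1 : ∀ x : Fin n → ZMod 5, (act g (act (om a i j) x - x)) k = 0 := by
      intro x
      have h2 : act g (act (om a i j) x - x) = act (om a i j) (act g x) - act g x := by
        rw [sub_eq_add_neg, act_add, ← act_mul, h i j hi hj, act_mul]
        have : act g (-x) = - act g x := ac_neg _ _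
        rw [this, sub_eq_add_neg]
      rw [h2, act_om hi hj]
      simp [hki, hkj]
    have h2 := h1 (Pi.single i 1)
    have h3 := h1 (Pi.single j 1)
    rw [om_e1 hi hj] at h2
    rw [om_e2 hi hj] at h3
    have e1 : (2 : ZMod 5) • (Pi.single i 1 : Fin n → ZMod 5) + (1 : ZMod 5) • Pi.single j 1 -
        Pi.single i 1 = (1 : ZMod 5) • Pi.single i 1 + (1 : ZMod 5) • Pi.single j 1 := by
      funext l
      simp only [Pi.add_apply, Pi.sub_apply, Pi.smul_apply, smul_eq_mul]
      ring
    have e2 : (3 : ZMod 5) • (Pi.single i 1 : Fin n → ZMod 5) + (2 : ZMod 5) • Pi.single j 1 -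
        Pi.single j 1 = (3 : ZMod 5) • Pi.single i 1 + (1 : ZMod 5) • Pi.single j 1 := by
      funext l
      simp only [Pi.add_apply, Pi.sub_apply, Pi.smul_apply, smul_eq_mul]
      ring
    rw [e1, act_add, act_smul, act_smul] at h2
    rw [e2, act_add, act_smul, act_smul] at h3
    simp only [Pi.add_apply, Pi.smul_apply, smul_eq_mul] at h2 h3
    have h5 : (5 : ZMod 5) = 0 := by decide
    constructor
    · have h6 : (2 : ZMod 5) * (act g (Pi.single i 1)) k = 0 := by linear_combination h3 - h2
      exact (mul_eq_zero.1 h6).resolve_left (by decide)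
    · have h6 : (2 : ZMod 5) * (act g (Pi.single j 1)) k = 0 := by
        linear_combination 3 * h2 - h3
      exact (mul_eq_zero.1 h6).resolve_left (by decide)
  have hz : ∀ i k, k ≠ i → (act g (Pi.single i 1)) k = 0 := by
    intro i k hki
    rcases hP.val i with hi | hi
    · obtain ⟨j, hj, hjk⟩ := exists_cls hP 2 (Or.inr rfl) {k} (by simp)
      rw [Finset.mem_singleton] at hjk
      exact (hpl i j hi hj k hki (Ne.symm hjk)).1
    · obtain ⟨j, hj, hjk⟩ := exists_cls hP 1 (Or.inl rfl) {k} (by simp)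
      rw [Finset.mem_singleton] at hjk
      exact (hpl j i hj hi k (Ne.symm hjk) hki).2
  set c : Fin n → ZMod 5 := fun i => (act g (Pi.single i 1)) i with hc
  have hce : ∀ i, act g (Pi.single i 1) = c i • Pi.single i 1 := by
    intro i
    funext k
    by_cases hk : k = i
    · subst hk; simp [hc]
    · rw [hz i k hk]; simp [hk]
  have hcc : ∀ i j, a i = 1 → a j = 2 → c i = c j := by
    intro i j hi hj
    have hij := ne_of_val hi hj
    have h1 : act g (act (om a i j) (Pi.single i 1)) = act (om a i j) (act g (Pi.single i 1)) := by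
      rw [← act_mul, h i j hi hj, act_mul]
    rw [hce, act_smul, om_e1 hi hj, act_add, act_smul, act_smul, hce, hce] at h1
    have h2 := congrFun h1 j
    simp [hij.symm] at h2
    exact h2.symm
  obtain ⟨i0, hi0⟩ := exists_one hP
  obtain ⟨j0, hj0⟩ := exists_two hP
  have hall : ∀ i, c i = c i0 := by
    intro i
    rcases hP.val i with hi | hi
    · rw [hcc i j0 hi hj0, hcc i0 j0 hi0 hj0]
    · rw [hcc i0 i hi0 hi]
  have hsq : c i0 * c i0 = 1 := by
    have h1 := act_B g (Pi.single i0 1) (Pi.single i0 1)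
    rw [hce, B_smul_left, B_smul_right, B_ee, hi0] at h1
    linear_combination h1
  rcases mul_self_eq_one_iff.1 hsq with h1 | h1
  · left
    refine act_ext_e fun i => ?_
    rw [hce, hall, h1, one_smul, act_one]
  · right
    refine act_ext_e fun i => ?_
    rw [hce, hall, h1, act_sg]
    funext k
    simp

lemma mem_center_iff {g : ↥(OD a)} :
    g ∈ Subgroup.center ↥(OD a) ↔ g = 1 ∨ g = sg a Finset.univ := by
  constructor
  · intro h
    refine eq_scalar hP fun i j _ _ => ?_
    exact (Subgroup.mem_center_iff.1 h _).symm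
  · rintro (rfl | rfl)
    · exact one_mem _
    · rw [Subgroup.mem_center_iff]
      intro g
      refine act_ext fun x => ?_
      rw [act_mul, act_mul, act_sg, act_sg]
      simp only [Finset.mem_univ, if_true]
      have h1 : (fun k => - x k) = -x := rfl
      have h2 : (fun k => - (act g x) k) = -(act g x) := rfl
      rw [h1, h2]
      exact ac_neg _ _

lemma sg_univ_sq : sg a Finset.univ * sg a Finset.univ = 1 := sg_mul_self _

/-- the kernel -/
theorem ker_iff {g : ↥(OD a)} : Phi a g = 1 ↔ g = 1 ∨ g = sg a Finset.univ := by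
  constructor
  · intro h
    refine eq_scalar hP fun i j hi hj => ?_
    have h1 : Phi a g (pi' (om a i j) (om_mem0 hP hi hj)) = pi' (om a i j) (om_mem0 hP hi hj) := by
      rw [h]; rfl
    rw [Phi_pi, pi'_eq, mem_center_iff hP] at h1
    rcases h1 with h1 | h1
    · have h2 : g * om a i j * g⁻¹ = om a i j := (inv_mul_eq_one.1 h1).symm
      exact mul_inv_eq_iff_eq_mul.1 h2
    · exfalso
      have h2 : g * om a i j * g⁻¹ = om a i j * sg a Finset.univ := by
        rw [← h1]; group
      have h3 : (g * om a i j * g⁻¹) * (g * om a i j * g⁻¹) * (g * om a i j * g⁻¹) = 1 := by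
        have : (g * om a i j * g⁻¹) * (g * om a i j * g⁻¹) * (g * om a i j * g⁻¹) =
            g * (om a i j * om a i j * om a i j) * g⁻¹ := by group
        rw [this, om_three hi hj]
        group
      rw [h2] at h3
      have hz : sg a Finset.univ ∈ Subgroup.center ↥(OD a) := (mem_center_iff hP).2 (Or.inr rfl)
      have hcomm : om a i j * sg a Finset.univ = sg a Finset.univ * om a i j :=
        Subgroup.mem_center_iff.1 hz _
      have h4 : om a i j * sg a Finset.univ * (om a i j * sg a Finset.univ) *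
          (om a i j * sg a Finset.univ) = (om a i j * om a i j * om a i j) *
            (sg a Finset.univ * sg a Finset.univ * sg a Finset.univ) := by
        have hC : Commute (om a i j) (sg a Finset.univ) := hcomm
        calc _ = (om a i j * sg a Finset.univ) ^ 3 := by rw [pow_three']
          _ = (om a i j) ^ 3 * (sg a Finset.univ) ^ 3 := hC.mul_pow 3
          _ = _ := by rw [pow_three', pow_three']
      rw [h4, om_three hi hj, one_mul, sg_mul_self, one_mul] at h3
      obtain ⟨i0, hi0⟩ := exists_one hP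
      have h5 := congrArg (fun g => act g (Pi.single i0 1) i0) h3
      simp only [act_sg, act_one, Finset.mem_univ, if_true, Pi.single_eq_same] at h5
      exact absurd h5 (by decide)
  · intro h
    have h1 : g ∈ Subgroup.center ↥(OD a) := (mem_center_iff hP).2 h
    show MulAut.conjNormal (H := commutator (POD a)) (QuotientGroup.mk' _ g) = 1
    have h2 : QuotientGroup.mk' (Subgroup.center ↥(OD a)) g = 1 := (QuotientGroup.eq_one_iff g).2 h1
    rw [h2, map_one]

omit hP in
theorem stmtKer : StmtKer := fun n a hP g => ker_iff hP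

/-- the center of the simple group is trivial -/
lemma centerless {l : Lam a} (h : ∀ m, l * m = m * l) : l = 1 := by
  obtain ⟨g, hg, rfl⟩ := exists_pi l
  have h1 : Phi a g = 1 := by
    rw [Phi_conj hg]
    refine MulEquiv.ext fun m => ?_
    rw [MulAut.conj_apply, h]
    simp
  have h2 := (mem_center_iff hP).2 ((ker_iff hP).1 h1)
  apply Subtype.ext
  exact (QuotientGroup.eq_one_iff g).2 h2

end

end

end Vale.Agent.P240.R2.H406
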