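import Vale.Agent.P240.R2.H406.S4

/-!
An automorphism that commutes with the sign changes at two coordinates of the same class is a sign
change.
-/

set_option autoImplicit false
set_option linter.all false

namespace Vale.Agent.P240.R2.H406

open Matrix
open scoped commutatorElement
open Vale.Agent.P240.R2.H145.EO
open Vale.Agent.P240.R2.H401.D (POD SD0 SD0_normal)

noncomputable section

lemma cube_one : ∀ c : ZMod 5, c * c * c = 1 → c = 1 := by decide

/-- the isometries of order `3` of the plane -/
lemma plane3 : ∀ α β γ δ : ZMod 5, α * α + 2 * (β * β) = 1 → α * γ + 2 * (β * δ) = 0 →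
    γ * γ + 2 * (δ * δ) = 2 →
    α * (α * α + γ * β) + γ * (β * α + δ * β) = 1 →
    β * (α * α + γ * β) + δ * (β * α + δ * β) = 0 →
    α * (α * γ + γ * δ) + γ * (β * γ + δ * δ) = 0 →
    β * (α * γ + γ * δ) + δ * (β * γ + δ * δ) = 1 →
    (α = 1 ∧ β = 0 ∧ γ = 0 ∧ δ = 1) ∨ (α = 2 ∧ β = 1 ∧ γ = 3 ∧ δ = 2) ∨
      (α = 2 ∧ β = 4 ∧ γ = 2 ∧ δ = 2) := by
  decide +kernel

section
variable {n : ℕ} {a : Fin n → ZMod 5} (hP : PNum a)
include hP

/-- **the elements of order `3` that commute with the sign changes off `{p, q}`** -/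
lemma order_three {p q : Fin n} (hp : a p = 1) (hq : a q = 2) {h : ↥(OD a)} (h3 : h * h * h = 1)
    (h1 : h ≠ 1) (hc : ∀ i k, i ≠ k → a i = a k → i ≠ p → i ≠ q → k ≠ p → k ≠ q →
      h * sg a {i, k} = sg a {i, k} * h) : h = om a p q ∨ h = (om a p q)⁻¹ := by
  have hpq := ne_of_val hp hq
  have hfix : ∀ l, l ≠ p → l ≠ q → act h (Pi.single l 1) = Pi.single l 1 := by
    intro l hlp hlq
    have hz : ∀ k, k ≠ l → (act h (Pi.single l 1)) k = 0 := by
      intro k hkl
      obtain ⟨l', hl', hn⟩ : ∃ l', a l' = a l ∧ l' ∉ ({p, q, l, k} : Finset (Fin n)) := by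
        rcases hP.val l with h4 | h4
        · obtain ⟨l', h5, h6⟩ := exists_cls hP 1 (Or.inl rfl) {p, l, k} (Finset.card_le_three)
          refine ⟨l', by rw [h4, h5], ?_⟩
          simp only [Finset.mem_insert, Finset.mem_singleton, not_or] at h6 ⊢
          refine ⟨h6.1, ?_, h6.2.1, h6.2.2⟩
          rintro rfl
          rw [hq] at h5
          exact absurd h5 (by decide)
        · obtain ⟨l', h5, h6⟩ := exists_cls hP 2 (Or.inr rfl) {q, l, k} (Finset.card_le_three)
          refine ⟨l', by rw [h4, h5], ?_⟩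
          simp only [Finset.mem_insert, Finset.mem_singleton, not_or] at h6 ⊢
          refine ⟨?_, h6.1, h6.2.1, h6.2.2⟩
          rintro rfl
          rw [hp] at h5
          exact absurd h5 (by decide)
      simp only [Finset.mem_insert, Finset.mem_singleton, not_or] at hn
      obtain ⟨n1, n2, n3, n4⟩ := hn
      have h4 := hc l l' (Ne.symm n3) hl'.symm hlp hlq n1 n2
      have h5 : act h (act (sg a {l, l'}) (Pi.single l 1)) =
          act (sg a {l, l'}) (act h (Pi.single l 1)) := by
        rw [← act_mul, h4, act_mul]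
      have h6 : act (sg a {l, l'}) (Pi.single l 1) = -(Pi.single l 1) := by
        rw [act_sg]
        funext m
        by_cases hm : m = l
        · subst hm; simp
        · by_cases hm' : m = l'
          · subst hm'; simp [hm]
          · simp [hm, hm']
      have h7 : act h (-(Pi.single l 1)) = -(act h (Pi.single l 1)) := ac_neg _ _
      rw [h6, h7, act_sg] at h5
      have h8 := congrFun h5 k
      have h9 : k ∉ ({l, l'} : Finset (Fin n)) := by
        simp only [Finset.mem_insert, Finset.mem_singleton, not_or]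
        exact ⟨hkl, Ne.symm n4⟩
      rw [if_neg h9, Pi.neg_apply] at h8
      have h10 : (2 : ZMod 5) * (act h (Pi.single l 1)) k = 0 := by linear_combination -h8
      exact (mul_eq_zero.1 h10).resolve_left (by decide)
    set c := (act h (Pi.single l 1)) l with hcdef
    have hce : act h (Pi.single l 1) = c • Pi.single l 1 := by
      funext k
      by_cases hk : k = l
      · subst hk; simp [hcdef]
      · rw [hz k hk]; simp [hk]
    have h4 : act (h * h * h) (Pi.single l 1) = (c * c * c) • Pi.single l 1 := by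
      rw [act_mul, act_mul, hce, act_smul, hce, act_smul, act_smul, hce, smul_smul, smul_smul]
    rw [h3, act_one] at h4
    have h5 := congrFun h4 l
    simp only [Pi.single_eq_same, Pi.smul_apply, smul_eq_mul, mul_one] at h5
    rw [hce, cube_one c h5.symm, one_smul]
  have hpl : ∀ x : Fin n → ZMod 5, ∀ l, l ≠ p → l ≠ q → (act h x) l = x l := by
    intro x l hlp hlq
    have h4 := act_B h (Pi.single l 1) x
    rw [hfix l hlp hlq, B_e, B_e] at h4
    exact mul_left_cancel₀ (ne_zero_of_val hP.val l) h4
  set α := (act h (Pi.single p 1)) p with hα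
  set β := (act h (Pi.single p 1)) q with hβ
  set γ := (act h (Pi.single q 1)) p with hγ
  set δ := (act h (Pi.single q 1)) q with hδ
  have hep : act h (Pi.single p 1) = α • Pi.single p 1 + β • Pi.single q 1 := by
    funext l
    by_cases h4 : l = p
    · subst h4; simp [hα, hpq]
    by_cases h5 : l = q
    · subst h5; simp [hβ, hpq.symm]
    · rw [hpl _ l h4 h5]; simp [h4, h5]
  have heq : act h (Pi.single q 1) = γ • Pi.single p 1 + δ • Pi.single q 1 := by
    funext l
    by_cases h4 : l = p
    · subst h4; simp [hγ, hpq]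
    by_cases h5 : l = q
    · subst h5; simp [hδ, hpq.symm]
    · rw [hpl _ l h4 h5]; simp [h4, h5]
  have hBq : ∀ s t s' t' : ZMod 5, B a (s • Pi.single p 1 + t • Pi.single q 1)
      (s' • Pi.single p 1 + t' • Pi.single q 1) = s * s' + 2 * (t * t') := by
    intro s t s' t'
    rw [B_add_left, B_smul_left, B_smul_left, B_e, B_e, hp, hq]
    simp [hpq, hpq.symm]
    ring
  have e1 : α * α + 2 * (β * β) = 1 := by
    rw [← hBq, ← hep, act_B, B_ee, hp]
  have e2 : α * γ + 2 * (β * δ) = 0 := by
    rw [← hBq, ← hep, ← heq, act_B, B_e, Pi.single_eq_of_ne hpq, mul_zero]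
  have e3 : γ * γ + 2 * (δ * δ) = 2 := by
    rw [← hBq, ← heq, act_B, B_ee, hq]
  have hst : ∀ s t : ZMod 5, act h (s • Pi.single p 1 + t • Pi.single q 1) =
      (α * s + γ * t) • Pi.single p 1 + (β * s + δ * t) • Pi.single q 1 := by
    intro s t
    rw [act_add, act_smul, act_smul, hep, heq]
    funext l
    simp only [Pi.add_apply, Pi.smul_apply, smul_eq_mul]
    ring
  have f1 : act (h * h * h) (Pi.single p 1) = Pi.single p 1 := by rw [h3, act_one]
  have f2 : act (h * h * h) (Pi.single q 1) = Pi.single q 1 := by rw [h3, act_one]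
  rw [act_mul, act_mul, hep, hst, hst] at f1
  rw [act_mul, act_mul, heq, hst, hst] at f2
  have g1 := congrFun f1 p
  have g2 := congrFun f1 q
  have g3 := congrFun f2 p
  have g4 := congrFun f2 q
  simp only [Pi.add_apply, Pi.smul_apply, smul_eq_mul, Pi.single_eq_same,
    Pi.single_eq_of_ne hpq, Pi.single_eq_of_ne hpq.symm, mul_one, mul_zero, add_zero,
    zero_add] at g1 g2 g3 g4
  rcases plane3 α β γ δ e1 e2 e3 g1 g2 g3 g4 with ⟨k1, k2, k3, k4⟩ | ⟨k1, k2, k3, k4⟩ |
      ⟨k1, k2, k3, k4⟩
  · exfalso
    apply h1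
    refine act_ext_e fun l => ?_
    rw [act_one]
    by_cases h4 : l = p
    · rw [h4, hep, k1, k2, one_smul, zero_smul, add_zero]
    by_cases h5 : l = q
    · rw [h5, heq, k3, k4, one_smul, zero_smul, zero_add]
    · exact hfix l h4 h5
  · left
    refine act_ext_e fun l => ?_
    by_cases h4 : l = p
    · rw [h4, hep, k1, k2, om_e1 hp hq]
    by_cases h5 : l = q
    · rw [h5, heq, k3, k4, om_e2 hp hq]
    · rw [hfix l h4 h5, om_e hp hq h4 h5]
  · right
    refine act_ext_e fun l => ?_
    by_cases h4 : l = p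
    · rw [h4, hep, k1, k2, om_inv_e1 hp hq]
    by_cases h5 : l = q
    · rw [h5, heq, k3, k4, om_inv_e2 hp hq]
    · rw [hfix l h4 h5]
      have h6 : act (om a p q)⁻¹ (act (om a p q) (Pi.single l 1)) = Pi.single l 1 := act_inv _ _
      rw [om_e hp hq h4 h5] at h6
      exact h6.symm

variable {f : MulAut (Lam a)}
  (hf : ∀ i k : Fin n, i ≠ k → a i = a k → f * Phi a (sg a {i, k}) = Phi a (sg a {i, k}) * f)
include hf

/-- `om i j` is mapped to itself or to its inverse -/
lemma f_om {p q : Fin n} (hp : a p = 1) (hq : a q = 2) :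
    f (pi' (om a p q) (om_mem0 hP hp hq)) = pi' (om a p q) (om_mem0 hP hp hq) ∨
      f (pi' (om a p q) (om_mem0 hP hp hq)) =
        pi' (om a p q)⁻¹ (inv_mem (om_mem0 hP hp hq)) := by
  have hpq := ne_of_val hp hq
  set u := pi' (om a p q) (om_mem0 hP hp hq) with hu
  have hz : sg a Finset.univ ∈ Subgroup.center ↥(OD a) := (mem_center_iff hP).2 (Or.inr rfl)
  have hz0 : sg a Finset.univ ∈ SD0 a := by
    show QuotientGroup.mk' _ (sg a Finset.univ) ∈ commutator (POD a)
    have : QuotientGroup.mk' (Subgroup.center ↥(OD a)) (sg a Finset.univ) = 1 :=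
      (QuotientGroup.eq_one_iff _).2 hz
    rw [this]
    exact one_mem _
  have hcz : ∀ g : ↥(OD a), g * sg a Finset.univ = sg a Finset.univ * g := fun g =>
    Subgroup.mem_center_iff.1 hz g
  have hzz := sg_mul_self (a := a) Finset.univ
  have hz1 : sg a Finset.univ ≠ (1 : ↥(OD a)) := by
    intro h3
    obtain ⟨i0, hi0⟩ := exists_one hP
    have h5 := congrArg (fun g => act g (Pi.single i0 1) i0) h3
    simp only [act_sg, act_one, Finset.mem_univ, if_true, Pi.single_eq_same] at h5
    exact absurd h5 (by decide)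
  -- a lift of order three
  obtain ⟨h, hh, hfu, h3⟩ : ∃ (h : ↥(OD a)) (hh : h ∈ SD0 a), f u = pi' h hh ∧ h * h * h = 1 := by
    obtain ⟨h, hh, hfu⟩ := exists_pi (f u)
    have h4 : f u * f u * f u = 1 := by
      rw [← map_mul, ← map_mul, hu, pi'_mul, pi'_mul]
      have : pi' (om a p q * om a p q * om a p q) (mul_mem (mul_mem (om_mem0 hP hp hq)
          (om_mem0 hP hp hq)) (om_mem0 hP hp hq)) = 1 := by
        apply Subtype.ext
        show QuotientGroup.mk' _ _ = 1
        rw [om_three hp hq, map_one]
      rw [this, map_one]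
    rw [← hfu, pi'_mul, pi'_mul] at h4
    have h5 : h * h * h ∈ Subgroup.center ↥(OD a) := by
      have h6 := congrArg Subtype.val h4
      exact (QuotientGroup.eq_one_iff _).1 h6
    rcases (mem_center_iff hP).1 h5 with h6 | h6
    · exact ⟨h, hh, hfu.symm, h6⟩
    · refine ⟨h * sg a Finset.univ, mul_mem hh hz0, ?_, ?_⟩
      · rw [← hfu, pi'_eq]
        have : (h * sg a Finset.univ)⁻¹ * h = sg a Finset.univ := by
          rw [_root_.mul_inv_rev, sg_inv]
          group
        rw [this]
        exact hz
      · calc h * sg a Finset.univ * (h * sg a Finset.univ) * (h * sg a Finset.univ)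
            = h * (sg a Finset.univ * h) * (sg a Finset.univ * h) * sg a Finset.univ := by group
          _ = h * (h * sg a Finset.univ) * (h * sg a Finset.univ) * sg a Finset.univ := by
              rw [hcz h]
          _ = h * h * (sg a Finset.univ * h) * (sg a Finset.univ * sg a Finset.univ) := by group
          _ = (h * h * h) * sg a Finset.univ := by rw [hzz, ← hcz h]; group
          _ = 1 := by rw [h6, hzz]
  have h1 : h ≠ 1 := by
    rintro rfl
    have h4 : f u = 1 := by
      rw [hfu]
      apply Subtype.ext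
      exact map_one _
    have h5 : u = 1 := by
      apply f.injective
      rw [h4, map_one]
    have h6 : om a p q ∈ Subgroup.center ↥(OD a) :=
      (QuotientGroup.eq_one_iff _).1 (congrArg Subtype.val h5)
    have h7 : ∀ k, k ≠ p → (act (om a p q) (Pi.single p 1)) k = 0 := by
      intro k hk
      rcases (mem_center_iff hP).1 h6 with h8 | h8
      · rw [h8, act_one, Pi.single_eq_of_ne hk]
      · rw [h8, act_sg]
        simp [hk]
    have h8 := h7 q hpq.symm
    rw [om_e1 hp hq] at h8
    simp [hpq.symm] at h8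
  have hc : ∀ i k, i ≠ k → a i = a k → i ≠ p → i ≠ q → k ≠ p → k ≠ q →
      h * sg a {i, k} = sg a {i, k} * h := by
    intro i k hik haik hip hiq hkp hkq
    have h4 : sg a {i, k} * om a p q * (sg a {i, k})⁻¹ = om a p q := by
      rw [om_conj hp hq, if_pos]
      simp [hip.symm, hiq.symm, hkp.symm, hkq.symm]
    have h5 : Phi a (sg a {i, k}) u = u := by
      rw [hu, Phi_pi, pi'_eq, h4, inv_mul_cancel]
      exact one_mem _
    have h6 : Phi a (sg a {i, k}) (f u) = f u := by
      have h7 := DFunLike.congr_fun (hf i k hik haik) u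
      rw [MulAut.mul_apply, MulAut.mul_apply, h5] at h7
      exact h7.symm
    rw [hfu, Phi_pi, pi'_eq, mem_center_iff hP] at h6
    rcases h6 with h6 | h6
    · have h7 : h = sg a {i, k} * h * (sg a {i, k})⁻¹ := inv_mul_eq_one.1 h6
      exact eq_mul_inv_iff_mul_eq.1 h7
    · exfalso
      have h7 : sg a {i, k} * h * (sg a {i, k})⁻¹ = h * sg a Finset.univ := by
        rw [← h6]; group
      have h8 : (sg a {i, k} * h * (sg a {i, k})⁻¹) * (sg a {i, k} * h * (sg a {i, k})⁻¹) *
          (sg a {i, k} * h * (sg a {i, k})⁻¹) = 1 := by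
        have : (sg a {i, k} * h * (sg a {i, k})⁻¹) * (sg a {i, k} * h * (sg a {i, k})⁻¹) *
            (sg a {i, k} * h * (sg a {i, k})⁻¹) = sg a {i, k} * (h * h * h) * (sg a {i, k})⁻¹ := by
          group
        rw [this, h3]
        group
      rw [h7] at h8
      have hC : Commute h (sg a Finset.univ) := hcz h
      have h9 : h * sg a Finset.univ * (h * sg a Finset.univ) * (h * sg a Finset.univ) =
          (h * h * h) * (sg a Finset.univ * sg a Finset.univ * sg a Finset.univ) := by
        calc _ = (h * sg a Finset.univ) ^ 3 := by rw [pow_three']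
          _ = h ^ 3 * (sg a Finset.univ) ^ 3 := hC.mul_pow 3
          _ = _ := by rw [pow_three', pow_three']
      rw [h9, h3, one_mul, hzz, one_mul] at h8
      exact hz1 h8
  rcases order_three hP hp hq h3 h1 hc with h4 | h4
  · left
    rw [hfu]
    subst h4
    rfl
  · right
    rw [hfu]
    subst h4
    rfl

end

end

end Vale.Agent.P240.R2.H406
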