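import Vale.Agent.P240.R2.H406.S5

/-!
An automorphism that commutes with the sign changes at two coordinates of the same class is a sign
change: the result.
-/

set_option autoImplicit false
set_option linter.all false

namespace Vale.Agent.P240.R2.H406

open Matrix
open scoped commutatorElement
open Vale.Agent.P240.R2.H145.EO
open Vale.Agent.P240.R2.H401.D (POD SD0 SD0_normal)

noncomputable section

lemma pl1 (P Q : Prop) : P ↔ ¬ (¬ (Q ↔ Q) ↔ P) := by
  by_cases hP : P <;> simp [hP]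

lemma pl2 (P Q : Prop) : P ↔ ¬ (¬ (P ↔ Q) ↔ Q) := by
  by_cases hP : P <;> by_cases hQ : Q <;> simp [hP, hQ]

lemma pl3 (P Q R S : Prop) (h : (P ↔ Q) ↔ (R ↔ S)) : P ↔ ¬ (¬ (R ↔ S) ↔ Q) := by
  by_cases hP : P <;> by_cases hQ : Q <;> by_cases hR : R <;> by_cases hS : S <;>
    simp [hP, hQ, hR, hS] at h ⊢

lemma tau_word : ∀ x y z : ZMod 5,
    wa uA vA [true, false, false, true, false, false, true] (x, y, z) = (y, x, -z) := by
  decide +kernel

section
variable {n : ℕ} {a : Fin n → ZMod 5}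

/-- the involution of the triple `(i, i', j)` -/
lemma exists_tau {i i' j : Fin n} (hi : a i = 1) (hi' : a i' = 1) (hj : a j = 2) (hii : i ≠ i') :
    ∃ g ∈ Subgroup.closure {om a i j, om a i' j}, ∀ x : Fin n → ZMod 5,
      act g x = upd i i' j (x i', x i, - x j) x := by
  obtain ⟨g, hg, h⟩ := wordA (a := a) hi hi' hj hii [true, false, false, true, false, false, true]
  exact ⟨g, hg, fun x => by rw [h, tr, tau_word]⟩

/-- the subgroup on which `f` is the conjugation by `sg J` -/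
def EqL (f : MulAut (Lam a)) (J : Finset (Fin n)) : Subgroup ↥(OD a) where
  carrier := {g | ∃ h : g ∈ SD0 a, f (pi' g h) = Phi a (sg a J) (pi' g h)}
  mul_mem' := by
    rintro g g' ⟨h, h1⟩ ⟨h', h1'⟩
    refine ⟨mul_mem h h', ?_⟩
    rw [← pi'_mul h h', map_mul, map_mul, h1, h1']
  one_mem' := ⟨one_mem _, by
    have : pi' (1 : ↥(OD a)) (one_mem _) = 1 := Subtype.ext (map_one _)
    rw [this, map_one, map_one]⟩
  inv_mem' := by
    rintro g ⟨h, h1⟩
    refine ⟨inv_mem h, ?_⟩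
    have : pi' g⁻¹ (inv_mem h) = (pi' g h)⁻¹ := rfl
    rw [this, map_inv, map_inv, h1]

lemma mem_EqL {f : MulAut (Lam a)} {J : Finset (Fin n)} {g : ↥(OD a)} :
    g ∈ EqL f J ↔ ∃ h : g ∈ SD0 a, f (pi' g h) = Phi a (sg a J) (pi' g h) := Iff.rfl

/-- conjugates of the involution -/
lemma conj_tau {i i' j : Fin n} (hii : i ≠ i') (hij : i ≠ j) {g : ↥(OD a)}
    (hg : ∀ x : Fin n → ZMod 5, act g x = upd i i' j (x i', x i, - x j) x) (J : Finset (Fin n)) :
    act (sg a J * g * (sg a J)⁻¹) (Pi.single i 1) i' = if (i ∈ J ↔ i' ∈ J) then 1 else -1 := by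
  rw [sg_inv, act_mul, act_mul, act_sg, hg, act_sg]
  by_cases h1 : i ∈ J <;> by_cases h2 : i' ∈ J <;> simp [h1, h2, upd, hii, hii.symm]

lemma conj_tau' {i i' j l : Fin n} (h1 : l ≠ i) (h2 : l ≠ i') (h3 : l ≠ j) {g : ↥(OD a)}
    (hg : ∀ x : Fin n → ZMod 5, act g x = upd i i' j (x i', x i, - x j) x) (J : Finset (Fin n)) :
    act (sg a J * g * (sg a J)⁻¹) (Pi.single l 1) l = 1 := by
  rw [sg_inv, act_mul, act_mul, act_sg, hg, act_sg]
  by_cases h4 : l ∈ J <;> simp [h4, upd, h1, h2, h3]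

end

section
variable {n : ℕ} {a : Fin n → ZMod 5} (hP : PNum a)
include hP

lemma sg_mem0 {i k : Fin n} (hik : i ≠ k) (haik : a i = a k) : sg a {i, k} ∈ SD0 a := by
  have h1 : sg a {i, k} = sg a {i} * sg a {k} := by
    rw [sg_mul]
    congr 1
    ext l
    simp only [Finset.mem_insert, Finset.mem_singleton, Finset.mem_symmDiff]
    by_cases h2 : l = i
    · subst h2; simp [hik]
    · simp [h2]
  rw [h1]
  exact mem_SD0_of (sg_pair haik (ne_zero_of_val hP.val i) hik)

variable {f : MulAut (Lam a)}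
  (hf : ∀ i k : Fin n, i ≠ k → a i = a k → f * Phi a (sg a {i, k}) = Phi a (sg a {i, k}) * f)
include hf

/-- the sign changes at two coordinates are fixed -/
lemma f_sg {i k : Fin n} (hik : i ≠ k) (haik : a i = a k) :
    f (pi' (sg a {i, k}) (sg_mem0 hP hik haik)) = pi' (sg a {i, k}) (sg_mem0 hP hik haik) := by
  set s := pi' (sg a {i, k}) (sg_mem0 hP hik haik) with hs
  have h1 : ∀ m : Lam a, f (s * m * s⁻¹) = s * f m * s⁻¹ := by
    intro m
    have h2 := DFunLike.congr_fun (hf i k hik haik) m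
    rw [MulAut.mul_apply, MulAut.mul_apply, Phi_conj (sg_mem0 hP hik haik), MulAut.conj_apply,
      MulAut.conj_apply] at h2
    exact h2
  have h2 : s⁻¹ * f s = 1 := by
    refine centerless hP fun m => ?_
    obtain ⟨m, rfl⟩ := f.surjective m
    have h3 := h1 m
    rw [map_mul, map_mul, map_inv] at h3
    calc s⁻¹ * f s * f m = s⁻¹ * (f s * f m * (f s)⁻¹) * f s := by group
      _ = s⁻¹ * (s * f m * s⁻¹) * f s := by rw [h3]
      _ = f m * (s⁻¹ * f s) := by group
  exact (inv_mul_eq_one.1 h2).symm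

/-- the sign of a mixed pair is `-1` -/
def neg (f : MulAut (Lam a)) (i j : Fin n) : Prop :=
  ¬ ∃ h : om a i j ∈ SD0 a, f (pi' (om a i j) h) = pi' (om a i j) h

omit hf in
omit hP in
lemma neg_def (f : MulAut (Lam a)) (i j : Fin n) : neg f i j ↔
    ¬ ∃ h : om a i j ∈ SD0 a, f (pi' (om a i j) h) = pi' (om a i j) h := Iff.rfl

/-- `om i j` and the group of a sign change -/
lemma om_EqL {i j : Fin n} (hi : a i = 1) (hj : a j = 2) {J : Finset (Fin n)}
    (h : neg f i j ↔ ¬ (i ∈ J ↔ j ∈ J)) : om a i j ∈ EqL f J := by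
  refine ⟨om_mem0 hP hi hj, ?_⟩
  have key : ∀ {g g' : ↥(OD a)} (hg : g ∈ SD0 a) (hg' : g' ∈ SD0 a), g = g' → pi' g hg = pi' g' hg' := by
    rintro g g' hg hg' rfl
    rfl
  rw [Phi_pi]
  by_cases hn : neg f i j
  · have h1 := h.1 hn
    rcases f_om hP hf hi hj with h2 | h2
    · exact absurd ⟨om_mem0 hP hi hj, h2⟩ hn
    · rw [h2]
      refine key _ _ ?_
      rw [om_conj hi hj, if_neg h1]
  · have h1 : i ∈ J ↔ j ∈ J := by
      by_contra h3
      exact hn (h.2 h3)
    rw [neg_def, not_not] at hn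
    obtain ⟨h2, h3⟩ := hn
    rw [h3]
    refine key _ _ ?_
    rw [om_conj hi hj, if_pos h1]

/-- **consistency of the signs** -/
lemma cons {i i' j j' : Fin n} (hi : a i = 1) (hi' : a i' = 1) (hj : a j = 2) (hj' : a j' = 2)
    (hii : i ≠ i') (hjj : j ≠ j') :
    ((neg f i j ↔ neg f i' j) ↔ (neg f i j' ↔ neg f i' j')) := by
  classical
  have hij := ne_of_val hi hj
  have hij' := ne_of_val hi hj'
  have hi'j := ne_of_val hi' hj
  have hi'j' := ne_of_val hi' hj'
  -- the sign changes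
  have hJ : ∀ j, a j = 2 → ∃ J : Finset (Fin n), (i ∈ J ↔ neg f i j) ∧ (i' ∈ J ↔ neg f i' j) ∧
      j ∉ J := by
    intro j hj
    have h1 := ne_of_val hi hj
    have h2 := ne_of_val hi' hj
    refine ⟨(if neg f i j then {i} else ∅) ∪ (if neg f i' j then {i'} else ∅), ?_, ?_, ?_⟩
    · by_cases h3 : neg f i j <;> by_cases h4 : neg f i' j <;> simp [h3, h4, hii]
    · by_cases h3 : neg f i j <;> by_cases h4 : neg f i' j <;> simp [h3, h4, hii.symm]
    · by_cases h3 : neg f i j <;> by_cases h4 : neg f i' j <;> simp [h3, h4, h1.symm, h2.symm]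
  obtain ⟨J, hJ1, hJ2, hJ3⟩ := hJ j hj
  obtain ⟨J', hJ1', hJ2', hJ3'⟩ := hJ j' hj'
  obtain ⟨t, ht, hta⟩ := exists_tau (a := a) hi hi' hj hii
  obtain ⟨t', ht', hta'⟩ := exists_tau (a := a) hi hi' hj' hii
  have htE : t ∈ EqL f J := by
    have h1 : Subgroup.closure {om a i j, om a i' j} ≤ EqL f J := by
      rw [Subgroup.closure_le]
      rintro _ (rfl | rfl)
      · exact om_EqL hP hf hi hj (by rw [hJ1]; simp [hJ3])
      · exact om_EqL hP hf hi' hj (by rw [hJ2]; simp [hJ3])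
    exact h1 ht
  have htE' : t' ∈ EqL f J' := by
    have h1 : Subgroup.closure {om a i j', om a i' j'} ≤ EqL f J' := by
      rw [Subgroup.closure_le]
      rintro _ (rfl | rfl)
      · exact om_EqL hP hf hi hj' (by rw [hJ1']; simp [hJ3'])
      · exact om_EqL hP hf hi' hj' (by rw [hJ2']; simp [hJ3'])
    exact h1 ht'
  obtain ⟨h1, h2⟩ := htE
  obtain ⟨h1', h2'⟩ := htE'
  have hs := sg_mem0 hP hjj (by rw [hj, hj'])
  have htt : t' = t * sg a {j, j'} := by
    refine act_ext fun x => ?_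
    rw [hta', act_mul, hta, act_sg]
    funext k
    by_cases k1 : k = i
    · subst k1; simp [upd, hi'j, hi'j', hij, hij']
    by_cases k2 : k = i'
    · subst k2; simp [upd, hij, hij', k1, hi'j, hi'j']
    by_cases k3 : k = j
    · subst k3; simp [upd, k1, k2, hjj]
    by_cases k4 : k = j'
    · subst k4; simp [upd, k1, k2, k3]
    · simp [upd, k1, k2, k3, k4]
  have key : ∀ {g g' : ↥(OD a)} (hg : g ∈ SD0 a) (hg' : g' ∈ SD0 a), g = g' → pi' g hg = pi' g' hg' := by
    rintro g g' hg hg' rfl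
    rfl
  have h3 : pi' t' h1' = pi' t h1 * pi' (sg a {j, j'}) hs := by
    rw [pi'_mul]
    exact key _ _ htt
  have h4 : f (pi' t' h1') = Phi a (sg a J) (pi' t' h1') := by
    rw [h3, map_mul, h2, map_mul, f_sg hP hf hjj (by rw [hj, hj'])]
    congr 1
    rw [Phi_pi]
    refine key _ _ ?_
    rw [sg_comm, mul_inv_cancel_right]
  rw [h2', Phi_pi, Phi_pi, pi'_eq, mem_center_iff hP] at h4
  have h5 : sg a J' * t' * (sg a J')⁻¹ = sg a J * t' * (sg a J)⁻¹ := by
    rcases h4 with h4 | h4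
    · exact (inv_mul_eq_one.1 h4).symm
    · exfalso
      have h6 : sg a J' * t' * (sg a J')⁻¹ = (sg a J * t' * (sg a J)⁻¹) * sg a Finset.univ := by
        rw [← h4]; group
      have h7 := conj_tau' (a := a) hij.symm hi'j.symm hjj hta' J'
      have h8 := conj_tau' (a := a) hij.symm hi'j.symm hjj hta' J
      rw [h6, act_mul] at h7
      have h9 : act (sg a Finset.univ) (Pi.single j 1) = -(Pi.single j 1) := by
        rw [act_sg]
        funext k
        simp
      have h10 : act (sg a J * t' * (sg a J)⁻¹) (-(Pi.single j 1)) =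
          -(act (sg a J * t' * (sg a J)⁻¹) (Pi.single j 1)) := ac_neg _ _
      rw [h9, h10, Pi.neg_apply, h8] at h7
      exact absurd h7 (by decide)
  have h6 := conj_tau (a := a) hii hij' hta' J'
  have h7 := conj_tau (a := a) hii hij' hta' J
  rw [h5, h7] at h6
  have h8 : (i ∈ J ↔ i' ∈ J) ↔ (i ∈ J' ↔ i' ∈ J') := by
    by_cases k1 : (i ∈ J ↔ i' ∈ J) <;> by_cases k2 : (i ∈ J' ↔ i' ∈ J')
    · exact ⟨fun _ => k2, fun _ => k1⟩
    · rw [if_pos k1, if_neg k2] at h6
      exact absurd h6 (by decide)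
    · rw [if_neg k1, if_pos k2] at h6
      exact absurd h6 (by decide)
    · exact ⟨fun h => absurd h k1, fun h => absurd h k2⟩
  rw [hJ1, hJ2, hJ1', hJ2'] at h8
  exact h8

omit hf in
omit hP in
theorem stmtSem : StmtSem := by
  classical
  intro n a hP f hf
  obtain ⟨i0, hi0⟩ := exists_one hP
  obtain ⟨j0, hj0⟩ := exists_two hP
  set J : Finset (Fin n) := Finset.univ.filter (fun l => (a l = 2 ∧ neg f i0 l) ∨
    (a l = 1 ∧ ¬ (neg f l j0 ↔ neg f i0 j0))) with hJ
  have h12 : (1 : ZMod 5) ≠ 2 := by decide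
  have m1 : ∀ i, a i = 1 → (i ∈ J ↔ ¬ (neg f i j0 ↔ neg f i0 j0)) := by
    intro i hi
    rw [hJ, Finset.mem_filter, hi]
    simp [h12]
  have m2 : ∀ j, a j = 2 → (j ∈ J ↔ neg f i0 j) := by
    intro j hj
    rw [hJ, Finset.mem_filter, hj]
    simp [h12.symm]
  refine ⟨J, ?_⟩
  have hle : K0 a ≤ EqL f J := by
    rw [K0, Subgroup.closure_le]
    rintro _ ⟨i, j, hi, hj, rfl⟩
    refine om_EqL hP hf hi hj ?_
    rw [m1 i hi, m2 j hj]
    by_cases hii : i = i0
    · rw [hii]
      exact pl1 _ _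
    by_cases hjj : j = j0
    · rw [hjj]
      exact pl2 _ _
    · exact pl3 _ _ _ _ (cons hP hf hi hi0 hj hj0 hii hjj)
  refine MulEquiv.ext fun l => ?_
  obtain ⟨x, hx⟩ := l
  have h1 : (commutator ↥(OD a)).map (QuotientGroup.mk' (Subgroup.center ↥(OD a))) =
      commutator (POD a) := by
    rw [commutator_def, commutator_def, Subgroup.map_commutator,
      Subgroup.map_top_of_surjective _ (QuotientGroup.mk'_surjective _)]
  have h2 := hx
  rw [← h1] at h2
  obtain ⟨g, hg, rfl⟩ := h2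
  obtain ⟨h3, h4⟩ := hle (comm_le (three_le hP) hP.val (exists_one hP) (exists_two hP) hg)
  exact h4

end

end

end Vale.Agent.P240.R2.H406
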