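import Vale.Agent.P240.R2.H406.S4

/-!
The sign changes in the commutator subgroup: the sign of the permutation of the vectors of norm `1`.
-/

set_option autoImplicit false
set_option linter.all false

namespace Vale.Agent.P240.R2.H406

open Matrix
open scoped commutatorElement
open Vale.Agent.P240.R2.H145.EO
open Vale.Agent.P240.R2.H401.D (POD SD0 SD0_normal)

noncomputable section

/-- the sign of an involution -/
lemma sign_invol {X : Type*} [Fintype X] [DecidableEq X] (s : Equiv.Perm X) (hs : s * s = 1)
    {T : Finset X} (hT : ∀ x, x ∈ T ↔ (s x ∉ T ∧ s x ≠ x)) :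
    Equiv.Perm.sign s = (-1) ^ T.card := by
  have h2 : s ^ 2 = 1 := by rw [pow_two, hs]
  have hp : Fact (Nat.Prime 2) := ⟨Nat.prime_two⟩
  have hct := (Equiv.Perm.pow_prime_eq_one_iff (p := 2)).1 h2
  have hss : ∀ x, s (s x) = x := fun x => by
    have := DFunLike.congr_fun hs x
    exact this
  have hrep : s.cycleType = Multiset.replicate (Multiset.card s.cycleType) 2 :=
    Multiset.eq_replicate.2 ⟨rfl, hct⟩
  have hsum : s.support.card = 2 * Multiset.card s.cycleType := by
    rw [← Equiv.Perm.sum_cycleType]
    conv_lhs => rw [hrep]
    rw [Multiset.sum_replicate]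
    simp [mul_comm]
  have hsupp : s.support = T ∪ T.image s := by
    ext x
    rw [Equiv.Perm.mem_support, Finset.mem_union, Finset.mem_image]
    constructor
    · intro hx
      by_cases h1 : x ∈ T
      · exact Or.inl h1
      · right
        refine ⟨s x, ?_, hss x⟩
        rw [hT, hss]
        exact ⟨h1, hx.symm⟩
    · rintro (h1 | ⟨y, hy, rfl⟩)
      · exact ((hT x).1 h1).2
      · rw [hss]
        exact ((hT y).1 hy).2.symm
  have hdisj : Disjoint T (T.image s) := by
    rw [Finset.disjoint_left]
    intro x hx hx'
    obtain ⟨y, hy, rfl⟩ := Finset.mem_image.1 hx'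
    exact ((hT y).1 hy).1 hx
  have hcard : s.support.card = 2 * T.card := by
    rw [hsupp, Finset.card_union_of_disjoint hdisj, Finset.card_image_of_injective _ s.injective]
    ring
  have hT2 : Multiset.card s.cycleType = T.card := by omega
  rw [Equiv.Perm.sign_of_cycleType, Equiv.Perm.sum_cycleType, hcard, hT2]
  rw [pow_add, pow_mul]
  simp

section
variable {n : ℕ} (a : Fin n → ZMod 5)

/-- the vectors of norm `1` -/
abbrev XX : Type := {x : Fin n → ZMod 5 // B a x x = 1}

instance : DecidableEq (XX a) := Classical.decEq _

instance : Fintype (XX a) := Fintype.ofFinite _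

/-- the action on the vectors of norm `1` -/
def psi : ↥(OD a) →* Equiv.Perm (XX a) where
  toFun g :=
    { toFun := fun x => ⟨act g x.1, by rw [act_B]; exact x.2⟩
      invFun := fun x => ⟨act g⁻¹ x.1, by rw [act_B]; exact x.2⟩
      left_inv := fun x => Subtype.ext (act_inv g x.1)
      right_inv := fun x => Subtype.ext (act_inv' g x.1) }
  map_one' := by
    ext x
    show act (1 : ↥(OD a)) x.1 _ = _
    rw [act_one]; rfl
  map_mul' g h := by
    ext x
    show act (g * h) x.1 _ = _
    rw [act_mul]; rfl

lemma psi_coe (g : ↥(OD a)) (x : XX a) : (psi a g x).1 = act g x.1 := rfl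

/-- the sign character -/
def chi : ↥(OD a) →* ℤˣ := Equiv.Perm.sign.comp (psi a)

variable {a}

lemma half : ∀ t : ZMod 5, (t = 1 ∨ t = 2) ↔ (¬ (-t = 1 ∨ -t = 2) ∧ -t ≠ t) := by decide

/-- the sign of a coordinate reflection -/
lemma chi_single (hv : ∀ i, a i = 1 ∨ a i = 2) (i : Fin n) :
    chi a (sg a {i}) = if a i = 1 then -1 else 1 := by
  classical
  set T : Finset (XX a) := Finset.univ.filter fun x => x.1 i = 1 ∨ x.1 i = 2 with hT
  have hact : ∀ x : XX a, ((psi a (sg a {i})) x).1 = fun k => if k = i then - x.1 k else x.1 k := by
    intro x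
    rw [psi_coe, act_sg]
    simp
  have hmem : ∀ x : XX a, x ∈ T ↔ (x.1 i = 1 ∨ x.1 i = 2) := fun x => by
    rw [hT, Finset.mem_filter]
    simp
  have h1 : Equiv.Perm.sign (psi a (sg a {i})) = (-1) ^ T.card := by
    refine sign_invol _ ?_ fun x => ?_
    · rw [← map_mul, sg_mul_self, map_one]
    · have h2 : ((psi a (sg a {i})) x).1 i = - x.1 i := by rw [hact]; simp
      rw [hmem, hmem, h2, half]
      refine and_congr Iff.rfl ?_
      rw [not_iff_not, ← Subtype.coe_inj, hact]
      constructor
      · intro h
        funext k
        by_cases hk : k = i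
        · subst hk; simpa using h
        · simp [hk]
      · intro h
        have := congrFun h i
        simpa using this
  -- the parity
  have h2 : T.card % 2 = if a i = 1 then 1 else 0 := by
    -- the involution
    let r : T → T := fun x => ⟨psi a (sg a {i}ᶜ) x.1, by
      rw [hmem, psi_coe, act_sg]
      have := (hmem x.1).1 x.2
      simpa using this⟩
    have hr : ∀ x, r (r x) = x := by
      intro x
      apply Subtype.ext
      show psi a (sg a {i}ᶜ) (psi a (sg a {i}ᶜ) x.1) = x.1
      rw [← Equiv.Perm.mul_apply, ← map_mul, sg_mul_self, map_one]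
      rfl
    have hp : Fact (Nat.Prime 2) := ⟨Nat.prime_two⟩
    let r' : Function.End T := r
    have hr2 : r' ^ 2 ^ 1 = 1 := by
      rw [pow_one, pow_two]
      funext x
      exact hr x
    have h3 := Equiv.Perm.card_fixedPoints_modEq (f := r') hr2
    have h4 : T.card % 2 = Fintype.card (Function.fixedPoints r) % 2 := by
      have : Fintype.card T = T.card := Fintype.card_coe T
      rw [← this]
      exact h3
    rw [h4]
    have hfix : ∀ x : T, r x = x ↔ ∀ k, k ≠ i → x.1.1 k = 0 := by
      intro x
      rw [← Subtype.coe_inj, ← Subtype.coe_inj]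
      show act (sg a {i}ᶜ) x.1.1 = x.1.1 ↔ _
      rw [act_sg]
      constructor
      · intro h k hk
        have h5 := congrFun h k
        simp only [Finset.mem_compl, Finset.mem_singleton, hk, not_false_eq_true, if_true] at h5
        have h6 : (2 : ZMod 5) * x.1.1 k = 0 := by linear_combination -h5
        exact (mul_eq_zero.1 h6).resolve_left (by decide)
      · intro h
        funext k
        by_cases hk : k = i
        · simp [hk]
        · simp [hk, h k hk]
    have hval : ∀ x : T, r x = x → a i * (x.1.1 i * x.1.1 i) = 1 := by
      intro x hx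
      have h5 := (hfix x).1 hx
      have h6 := x.1.2
      have h7 : x.1.1 = x.1.1 i • (Pi.single i 1 : Fin n → ZMod 5) := by
        funext k
        by_cases hk : k = i
        · subst hk; simp
        · simp [hk, h5 k hk]
      rw [h7, B_smul_left, B_smul_right, B_ee] at h6
      linear_combination h6
    rcases hv i with hi | hi
    · rw [if_pos hi]
      have h5 : Fintype.card (Function.fixedPoints r) = 1 := by
        rw [Fintype.card_eq_one_iff]
        refine ⟨⟨⟨⟨Pi.single i 1, by rw [B_ee, hi]⟩, by rw [hmem]; simp⟩, ?_⟩, ?_⟩
        · show r _ = _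
          rw [hfix]
          intro k hk
          simp [hk]
        · rintro ⟨x, hx⟩
          apply Subtype.ext
          apply Subtype.ext
          apply Subtype.ext
          have h6 := (hfix x).1 hx
          have h7 := hval x hx
          rw [hi, one_mul] at h7
          have h8 : x.1.1 i = 1 := by
            have h9 := (hmem x.1).1 x.2
            rcases h9 with h9 | h9
            · exact h9
            · rw [h9] at h7
              exact absurd h7 (by decide)
          funext k
          by_cases hk : k = i
          · subst hk; simp [h8]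
          · simp [hk, h6 k hk]
      rw [h5]
    · have h0 : a i ≠ 1 := by rw [hi]; decide
      rw [if_neg h0]
      have h5 : Fintype.card (Function.fixedPoints r) = 0 := by
        rw [Fintype.card_eq_zero_iff]
        refine ⟨?_⟩
        rintro ⟨x, hx⟩
        have h7 := hval x hx
        rw [hi] at h7
        have h9 := (hmem x.1).1 x.2
        rcases h9 with h9 | h9
        · rw [h9] at h7
          exact absurd h7 (by decide)
        · rw [h9] at h7
          exact absurd h7 (by decide)
      rw [h5]
  show Equiv.Perm.sign (psi a (sg a {i})) = _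
  rw [h1]
  by_cases hi : a i = 1
  · rw [if_pos hi] at h2 ⊢
    exact Odd.neg_one_pow (Nat.odd_iff.2 h2)
  · rw [if_neg hi] at h2 ⊢
    exact Even.neg_one_pow (Nat.even_iff.2 h2)

end

end

end Vale.Agent.P240.R2.H406
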