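import Vale.Agent.P240.R2.H406.S8

/-!
Reflections of a diagonal form over `ZMod 5`: products of two reflections of the same norm, elements
of order three in planes, the characters.
-/

set_option autoImplicit false
set_option linter.all false

namespace Vale.Agent.P240.R2.H406

open Matrix
open scoped commutatorElement
open Vale.Agent.P240.R2.H145.EO
open Vale.Agent.P240.R2.H401.D (POD SD0 SD0_normal)

noncomputable section

section
variable {n : ℕ} {a : Fin n → ZMod 5}

/-- reflections of the same norm are conjugate -/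
lemma rr_mem {p q : Fin n → ZMod 5} (h0 : B a p p ≠ 0) (hpq : B a p p = B a q q) :
    rfl' a p * rfl' a q ∈ commutator ↥(OD a) := by
  obtain ⟨g, hg⟩ : ∃ g : ↥(OD a), g * rfl' a p * g⁻¹ = rfl' a q := by
    rcases exists_pm (by decide) h0 hpq with h | h
    · refine ⟨rfl' a (p - q), ?_⟩
      rw [rfl'_conj, act_rfl'_sub hpq h]
    · refine ⟨rfl' a (p + q), ?_⟩
      rw [rfl'_conj, act_rfl'_add hpq h, ← neg_one_smul (ZMod 5) q, rfl'_smul (by decide)]
  have h1 : rfl' a p * rfl' a q = ⁅rfl' a p, g⁆ := by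
    rw [commutatorElement_def, rfl'_inv, ← hg]
    group
  rw [h1]
  exact Subgroup.commutator_mem_commutator (Subgroup.mem_top _) (Subgroup.mem_top _)

/-- an element of order three -/
def om' (a : Fin n → ZMod 5) (u v : Fin n → ZMod 5) : ↥(OD a) :=
  rfl' a ((2 : ZMod 5) • u - v) * rfl' a u

lemma act_om' {u v : Fin n → ZMod 5} (hu : B a u u = 1) (hv : B a v v = 2) (huv : B a u v = 0)
    (y : Fin n → ZMod 5) : act (om' a u v) y =
      y + (B a u y - B a v y) • u + (B a u y - 2 * B a v y) • v := by
  have hvu : B a v u = 0 := by rw [B_comm, huv]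
  have hw : B a ((2 : ZMod 5) • u - v) ((2 : ZMod 5) • u - v) = 1 := by
    rw [B_sub_left, B_sub_right, B_sub_right, B_smul_left, B_smul_left, B_smul_right, B_smul_right,
      hu, hv, huv, hvu]
    decide
  rw [om', act_mul, act_rfl' (v := u) (by rw [hu]; decide), act_rfl' (by rw [hw]; decide), hw, hu,
    B_sub_left, B_smul_left, B_sub_right, B_sub_right, B_smul_right, B_smul_right, hu, hvu]
  funext k
  have h5 : (5 : ZMod 5) = 0 := by decide
  simp only [Pi.sub_apply, Pi.add_apply, Pi.smul_apply, smul_eq_mul, div_one]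
  linear_combination ((B a u y + B a v y) * u k - (B a u y ) * v k) * h5

lemma om'_three {u v : Fin n → ZMod 5} (hu : B a u u = 1) (hv : B a v v = 2) (huv : B a u v = 0) :
    om' a u v * om' a u v * om' a u v = 1 := by
  have hvu : B a v u = 0 := by rw [B_comm, huv]
  refine act_ext fun y => ?_
  rw [act_one, act_mul, act_mul, act_om' hu hv huv, act_om' hu hv huv, act_om' hu hv huv]
  simp only [B_add_right, B_smul_right, hu, hv, huv, hvu]
  funext k
  have h5 : (5 : ZMod 5) = 0 := by decide
  simp only [Pi.add_apply, Pi.smul_apply, smul_eq_mul]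
  linear_combination ((B a u y - B a v y) * u k + (B a u y - 2 * B a v y) * v k) * h5

lemma om'_mem {u v : Fin n → ZMod 5} (hu : B a u u = 1) (hv : B a v v = 2) (huv : B a u v = 0) :
    om' a u v ∈ commutator ↥(OD a) := by
  have hvu : B a v u = 0 := by rw [B_comm, huv]
  have hw : B a ((2 : ZMod 5) • u - v) ((2 : ZMod 5) • u - v) = 1 := by
    rw [B_sub_left, B_sub_right, B_sub_right, B_smul_left, B_smul_left, B_smul_right, B_smul_right,
      hu, hv, huv, hvu]
    decide
  exact rr_mem (by rw [hw]; decide) (by rw [hw, hu])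

lemma act_neg (g : ↥(OD a)) (x : Fin n → ZMod 5) : act g (-x) = - act g x := ac_neg _ _

lemma act_sub (g : ↥(OD a)) (x y : Fin n → ZMod 5) : act g (x - y) = act g x - act g y := by
  rw [sub_eq_add_neg, act_add, act_neg, sub_eq_add_neg]

/-- an isometry that commutes with `om' u v` preserves the plane of `u`, `v` -/
lemma plane_of_comm {u v : Fin n → ZMod 5} (hu : B a u u = 1) (hv : B a v v = 2)
    (huv : B a u v = 0) {g : ↥(OD a)} (h : g * om' a u v = om' a u v * g) :
    (∃ p q : ZMod 5, act g u = p • u + q • v) ∧ (∃ p q : ZMod 5, act g v = p • u + q • v) := by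
  have hvu : B a v u = 0 := by rw [B_comm, huv]
  have key : ∀ y, ∃ p q : ZMod 5, act g ((B a u y - B a v y) • u + (B a u y - 2 * B a v y) • v) =
      p • u + q • v := by
    intro y
    refine ⟨B a u (act g y) - B a v (act g y), B a u (act g y) - 2 * B a v (act g y), ?_⟩
    have h1 : act g (act (om' a u v) y) = act (om' a u v) (act g y) := by
      rw [← act_mul, h, act_mul]
    rw [act_om' hu hv huv, act_om' hu hv huv, add_assoc, act_add, add_assoc] at h1
    exact add_left_cancel h1
  obtain ⟨p, q, h1⟩ := key u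
  obtain ⟨p', q', h2⟩ := key v
  rw [hu, hvu] at h1
  rw [huv, hv] at h2
  have e1 : ((1 : ZMod 5) - 0) • u + ((1 : ZMod 5) - 2 * 0) • v = u + v := by
    simp
  have e2 : ((0 : ZMod 5) - 2) • u + ((0 : ZMod 5) - 2 * 2) • v = (3 : ZMod 5) • u + v := by
    have h3 : (0 : ZMod 5) - 2 = 3 := by decide
    have h4 : (0 : ZMod 5) - 2 * 2 = 1 := by decide
    rw [h3, h4, one_smul]
  rw [e1, act_add] at h1
  rw [e2, act_add, act_smul] at h2
  have h3 : (2 : ZMod 5) • act g u = (p' - p) • u + (q' - q) • v := by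
    have : (2 : ZMod 5) • act g u = ((3 : ZMod 5) • act g u + act g v) - (act g u + act g v) := by
      funext k
      simp only [Pi.sub_apply, Pi.add_apply, Pi.smul_apply, smul_eq_mul]
      ring
    rw [this, h1, h2]
    funext k
    simp only [Pi.sub_apply, Pi.add_apply, Pi.smul_apply, smul_eq_mul]
    ring
  have h5 : (5 : ZMod 5) = 0 := by decide
  have h4 : act g u = (3 * (p' - p)) • u + (3 * (q' - q)) • v := by
    funext k
    have h6 := congrFun h3 k
    simp only [Pi.sub_apply, Pi.add_apply, Pi.smul_apply, smul_eq_mul] at h6 ⊢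
    linear_combination 3 * h6 - act g u k * h5
  refine ⟨⟨_, _, h4⟩, ⟨p - 3 * (p' - p), q - 3 * (q' - q), ?_⟩⟩
  funext k
  have h6 := congrFun h1 k
  have h7 := congrFun h4 k
  simp only [Pi.sub_apply, Pi.add_apply, Pi.smul_apply, smul_eq_mul] at h6 h7 ⊢
  linear_combination h6 - h7

/-- an isometry that centralizes the commutator subgroup modulo the elements `z` of order `2`
commutes with the elements of order three -/
lemma comm_of_cube {g k z : ↥(OD a)} (hk : k * k * k = 1) (hz : z = 1 ∨ (z * z = 1 ∧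
    z * k = k * z)) (h : g * k * g⁻¹ = k * z) : g * k = k * g := by
  rcases hz with rfl | ⟨hz, hzk⟩
  · rw [mul_one] at h
    exact mul_inv_eq_iff_eq_mul.1 h
  · have h1 : (g * k * g⁻¹) * (g * k * g⁻¹) * (g * k * g⁻¹) = 1 := by
      have : (g * k * g⁻¹) * (g * k * g⁻¹) * (g * k * g⁻¹) = g * (k * k * k) * g⁻¹ := by group
      rw [this, hk]; group
    rw [h] at h1
    have h2 : k * z * (k * z) * (k * z) = (k * k * k) * (z * z * z) := by
      have hC : Commute k z := hzk.symm
      calc _ = (k * z) ^ 3 := by rw [pow_three']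
        _ = k ^ 3 * z ^ 3 := hC.mul_pow 3
        _ = _ := by rw [pow_three', pow_three']
    rw [h2, hk, one_mul, hz, one_mul] at h1
    rw [h1, mul_one] at h
    exact mul_inv_eq_iff_eq_mul.1 h

/-- the vectors of norm `c` -/
abbrev XC (a : Fin n → ZMod 5) (c : ZMod 5) : Type := {x : Fin n → ZMod 5 // B a x x = c}

instance (c : ZMod 5) : DecidableEq (XC a c) := Classical.decEq _

instance (c : ZMod 5) : Fintype (XC a c) := Fintype.ofFinite _

/-- the action on the vectors of norm `c` -/
def psc (a : Fin n → ZMod 5) (c : ZMod 5) : ↥(OD a) →* Equiv.Perm (XC a c) where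
  toFun g :=
    { toFun := fun x => ⟨act g x.1, by rw [act_B]; exact x.2⟩
      invFun := fun x => ⟨act g⁻¹ x.1, by rw [act_B]; exact x.2⟩
      left_inv := fun x => Subtype.ext (act_inv g x.1)
      right_inv := fun x => Subtype.ext (act_inv' g x.1) }
  map_one' := by
    ext x
    show act (1 : ↥(OD a)) x.1 _ = _
    rw [act_one]; rfl
  map_mul' g h := by
    ext x
    show act (g * h) x.1 _ = _
    rw [act_mul]; rfl

lemma psc_coe (c : ZMod 5) (g : ↥(OD a)) (x : XC a c) : (psc a c g x).1 = act g x.1 := rfl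

/-- the sign character -/
def chc (a : Fin n → ZMod 5) (c : ZMod 5) : ↥(OD a) →* ℤˣ := Equiv.Perm.sign.comp (psc a c)

/-- the sign of an involution `s`, by a commuting involution `r` that preserves a half `T` -/
lemma chc_eq {c : ZMod 5} {s r : ↥(OD a)} (hs : s * s = 1) (hr : r * r = 1)
    (T : (Fin n → ZMod 5) → Prop)
    (hT : ∀ x, B a x x = c → (T x ↔ (¬ T (act s x) ∧ act s x ≠ x)))
    (hTr : ∀ x, T x → T (act r x)) {m : ℕ}
    (hm : Nat.card {x : Fin n → ZMod 5 // B a x x = c ∧ T x ∧ act r x = x} = m) :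
    chc a c s = (-1) ^ m := by
  classical
  set T' : Finset (XC a c) := Finset.univ.filter fun x => T x.1 with hT'
  have hmem : ∀ x : XC a c, x ∈ T' ↔ T x.1 := fun x => by
    rw [hT', Finset.mem_filter]
    simp
  have h1 : Equiv.Perm.sign (psc a c s) = (-1) ^ T'.card := by
    refine sign_invol _ ?_ fun x => ?_
    · rw [← map_mul, hs, map_one]
    · rw [hmem, hmem, hT x.1 x.2]
      refine and_congr Iff.rfl ?_
      rw [not_iff_not, ← Subtype.coe_inj, psc_coe]
  let r₀ : T' → T' := fun x => ⟨psc a c r x.1, by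
    rw [hmem, psc_coe]
    exact hTr _ ((hmem x.1).1 x.2)⟩
  have hr₀ : ∀ x, r₀ (r₀ x) = x := by
    intro x
    apply Subtype.ext
    show psc a c r (psc a c r x.1) = x.1
    rw [← Equiv.Perm.mul_apply, ← map_mul, hr, map_one]
    rfl
  have hp : Fact (Nat.Prime 2) := ⟨Nat.prime_two⟩
  let r' : Function.End T' := r₀
  have hr2 : r' ^ 2 ^ 1 = 1 := by
    rw [pow_one, pow_two]
    funext x
    exact hr₀ x
  have h3 := Equiv.Perm.card_fixedPoints_modEq (f := r') hr2
  have h4 : T'.card % 2 = Fintype.card (Function.fixedPoints r₀) % 2 := by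
    have : Fintype.card T' = T'.card := Fintype.card_coe T'
    rw [← this]
    exact h3
  have h5 : Fintype.card (Function.fixedPoints r₀) = m := by
    rw [← hm, ← Nat.card_eq_fintype_card]
    refine Nat.card_congr
      { toFun := fun x => ⟨x.1.1.1, x.1.1.2, (hmem _).1 x.1.2, congrArg (fun y => y.1.1) x.2⟩
        invFun := fun x => ⟨⟨⟨x.1, x.2.1⟩, (hmem _).2 x.2.2.1⟩, by
          apply Subtype.ext
          apply Subtype.ext
          exact x.2.2.2⟩
        left_inv := fun x => rfl
        right_inv := fun x => rfl }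
  rw [h5] at h4
  show Equiv.Perm.sign (psc a c s) = _
  rw [h1]
  rcases Nat.even_or_odd m with h6 | h6
  · rw [h6.neg_one_pow]
    exact Even.neg_one_pow (Nat.even_iff.2 (by rw [h4]; exact Nat.even_iff.1 h6))
  · rw [h6.neg_one_pow]
    exact Odd.neg_one_pow (Nat.odd_iff.2 (by rw [h4]; exact Nat.odd_iff.1 h6))

end

end

end Vale.Agent.P240.R2.H406
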