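import Vale.Agent.P240.R2.H406.T1

/-!
The form `x_0^2 + ... + x_5^2` over `ZMod 5`: the kernel and the characters.
-/

set_option autoImplicit false
set_option linter.all false

namespace Vale.Agent.P240.R2.H406.Six

open Matrix
open scoped commutatorElement
open Vale.Agent.P240.R2.H145.EO
open Vale.Agent.P240.R2.H401.D (POD SD0 SD0_normal)

noncomputable section

/-- the form `x_0^2 + ... + x_5^2` -/
abbrev a1 : Fin 6 → ZMod 5 := fun _ => 1

/-- the standard basis -/
abbrev ee (i : Fin 6) : Fin 6 → ZMod 5 := Pi.single i 1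

lemma B_ei (i : Fin 6) (y : Fin 6 → ZMod 5) : B a1 (ee i) y = y i := by
  rw [B_e, one_mul]

lemma exists_two (i : Fin 6) : ∃ j k : Fin 6, j ≠ i ∧ k ≠ i ∧ j ≠ k := by
  revert i; decide

lemma exists_third (j k : Fin 6) : ∃ i : Fin 6, i ≠ j ∧ i ≠ k := by
  revert j k; decide

/-- an isometry that commutes with the elements of order three is a scalar -/
lemma scalar {g : ↥(OD a1)} (h : ∀ u v, B a1 u u = 1 → B a1 v v = 2 → B a1 u v = 0 →
    g * om' a1 u v = om' a1 u v * g) : g = 1 ∨ g = sg a1 Finset.univ := by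
  have hv : ∀ j k : Fin 6, j ≠ k → B a1 (ee j + ee k) (ee j + ee k) = 2 := by
    intro j k hjk
    rw [B_add_left, B_ei, B_ei]
    simp [hjk, hjk.symm]
    decide
  have hv' : ∀ j k : Fin 6, j ≠ k → B a1 (ee j - ee k) (ee j - ee k) = 2 := by
    intro j k hjk
    rw [B_sub_left, B_ei, B_ei]
    simp [hjk, hjk.symm]
    decide
  have huu : ∀ i, B a1 (ee i) (ee i) = 1 := fun i => by rw [B_ei]; simp
  have h0 : ∀ i, ∃ p : ZMod 5, act g (ee i) = p • ee i := by
    intro i
    obtain ⟨j, k, hj, hk, hjk⟩ := exists_two i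
    obtain ⟨⟨p, q, h1⟩, -⟩ := plane_of_comm (huu i) (hv j k hjk)
      (by rw [B_ei]; simp [hj, hk]) (h _ _ (huu i) (hv j k hjk) (by rw [B_ei]; simp [hj, hk]))
    obtain ⟨⟨p', q', h2⟩, -⟩ := plane_of_comm (huu i) (hv' j k hjk)
      (by rw [B_ei]; simp [hj, hk]) (h _ _ (huu i) (hv' j k hjk) (by rw [B_ei]; simp [hj, hk]))
    refine ⟨p, ?_⟩
    have h3 := congrFun h1 j
    have h4 := congrFun h1 k
    have h5 := congrFun h2 j
    have h6 := congrFun h2 k
    simp [hj, hk, hjk, hjk.symm] at h3 h4 h5 h6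
    have h7 : (2 : ZMod 5) * q = 0 := by
      rw [h3] at h5
      rw [h4] at h6
      linear_combination h5 + h6
    have h8 : q = 0 := (mul_eq_zero.1 h7).resolve_left (by decide)
    rw [h1, h8, zero_smul, add_zero]
  choose p hp using h0
  have hpp : ∀ j k : Fin 6, j ≠ k → p j = p k := by
    intro j k hjk
    obtain ⟨i, hij, hik⟩ := exists_third j k
    obtain ⟨-, s, t, h1⟩ := plane_of_comm (huu i) (hv j k hjk)
      (by rw [B_ei]; simp [hij.symm, hik.symm]) (h _ _ (huu i) (hv j k hjk)
        (by rw [B_ei]; simp [hij.symm, hik.symm]))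
    rw [act_add, hp, hp] at h1
    have h2 := congrFun h1 j
    have h3 := congrFun h1 k
    simp [hij, hik, hij.symm, hik.symm, hjk, hjk.symm] at h2 h3
    rw [h2, h3]
  have hall : ∀ i, p i = p 0 := by
    intro i
    by_cases hi : i = 0
    · rw [hi]
    · exact hpp i 0 hi
  have hsq : p 0 * p 0 = 1 := by
    have h1 := act_B g (ee 0) (ee 0)
    rw [hp, B_smul_left, B_smul_right, huu] at h1
    linear_combination h1
  rcases mul_self_eq_one_iff.1 hsq with h1 | h1
  · left
    refine act_ext_e fun i => ?_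
    rw [hp, hall, h1, one_smul, act_one]
  · right
    refine act_ext_e fun i => ?_
    rw [hp, hall, h1, act_sg]
    funext k
    simp

lemma univ_center : sg a1 Finset.univ ∈ Subgroup.center ↥(OD a1) := by
  rw [Subgroup.mem_center_iff]
  intro g
  refine act_ext fun x => ?_
  rw [act_mul, act_mul, act_sg, act_sg]
  simp only [Finset.mem_univ, if_true]
  have h1 : (fun k => - x k) = -x := rfl
  have h2 : (fun k => - (act g x) k) = -(act g x) := rfl
  rw [h1, h2]
  exact ac_neg _ _

lemma mem_center {g : ↥(OD a1)} :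
    g ∈ Subgroup.center ↥(OD a1) ↔ g = 1 ∨ g = sg a1 Finset.univ := by
  constructor
  · intro h
    exact scalar fun u v _ _ _ => (Subgroup.mem_center_iff.1 h _).symm
  · rintro (rfl | rfl)
    · exact one_mem _
    · exact univ_center

/-- **the kernel** -/
theorem ker6 (g : ↥(OD a1)) : Phi a1 g = 1 ↔ (g = 1 ∨ g = sg a1 Finset.univ) := by
  constructor
  · intro h
    refine scalar fun u v hu hv huv => ?_
    have hm := mem_SD0_of (om'_mem hu hv huv)
    have h1 : Phi a1 g (pi' (om' a1 u v) hm) = pi' (om' a1 u v) hm := by rw [h]; rfl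
    rw [Phi_pi, pi'_eq, mem_center] at h1
    have hz := Subgroup.mem_center_iff.1 univ_center (om' a1 u v)
    rcases h1 with h1 | h1
    · exact comm_of_cube (om'_three hu hv huv) (Or.inl rfl)
        (by rw [mul_one]; exact (inv_mul_eq_one.1 h1).symm)
    · refine comm_of_cube (om'_three hu hv huv) (Or.inr ⟨sg_mul_self _, hz.symm⟩) ?_
      rw [← h1]; group
  · intro h
    have h1 : g ∈ Subgroup.center ↥(OD a1) := mem_center.2 h
    show MulAut.conjNormal (H := commutator (POD a1)) (QuotientGroup.mk' _ g) = 1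
    have h2 : QuotientGroup.mk' (Subgroup.center ↥(OD a1)) g = 1 :=
      (QuotientGroup.eq_one_iff g).2 h1
    rw [h2, map_one]

lemma univ_comm : sg a1 Finset.univ ∈ commutator ↥(OD a1) := by
  have h1 : sg a1 Finset.univ = (sg a1 {0} * sg a1 {1}) * ((sg a1 {2} * sg a1 {3}) *
      (sg a1 {4} * sg a1 {5})) := by
    refine act_ext fun x => ?_
    simp only [act_mul, act_sg]
    funext k
    fin_cases k <;> simp
  rw [h1]
  have h0 : ∀ i : Fin 6, a1 i ≠ 0 := fun _ => one_ne_zero
  exact mul_mem (sg_pair rfl (h0 0) (by decide)) (mul_mem (sg_pair rfl (h0 2) (by decide))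
    (sg_pair rfl (h0 4) (by decide)))

/-- `SD0` is the commutator subgroup -/
lemma mem_SD0 {g : ↥(OD a1)} : g ∈ SD0 a1 ↔ g ∈ commutator ↥(OD a1) := by
  have h1 : (commutator ↥(OD a1)).map (QuotientGroup.mk' (Subgroup.center ↥(OD a1))) =
      commutator (POD a1) := by
    rw [commutator_def, commutator_def, Subgroup.map_commutator,
      Subgroup.map_top_of_surjective _ (QuotientGroup.mk'_surjective _)]
  constructor
  · intro h
    have h2 : QuotientGroup.mk' (Subgroup.center ↥(OD a1)) g ∈ commutator (POD a1) := h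
    rw [← h1] at h2
    obtain ⟨k, hk, hkg⟩ := h2
    have h3 : k⁻¹ * g ∈ Subgroup.center ↥(OD a1) := QuotientGroup.eq.1 hkg
    rcases mem_center.1 h3 with h4 | h4
    · rw [inv_mul_eq_one.1 h4] at hk
      exact hk
    · have h5 : g = k * sg a1 Finset.univ := by rw [← h4]; group
      rw [h5]
      exact mul_mem hk univ_comm
  · exact mem_SD0_of

/-- the second reflection -/
abbrev v1 : Fin 6 → ZMod 5 := ee 0 - ee 1

lemma B_v1 : B a1 v1 v1 = 2 := by
  rw [B_sub_left, B_ei, B_ei]
  decide

lemma act_v1 (x : Fin 6 → ZMod 5) : act (rfl' a1 v1) x =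
    fun k => if k = 0 then x 1 else if k = 1 then x 0 else x k := by
  rw [act_rfl' (by rw [B_v1]; decide), B_v1, B_sub_left, B_ei, B_ei]
  have h2 : (2 : ZMod 5) ≠ 0 := by decide
  have h3 : 2 * (x 0 - x 1) / 2 = x 0 - x 1 := by field_simp
  rw [h3]
  funext k
  by_cases h4 : k = 0
  · subst h4; simp [v1]
  by_cases h5 : k = 1
  · subst h5; simp [v1]
  · simp [v1, h4, h5]

/-- the sign of an element that acts on the first two coordinates -/
lemma chc6 {c : ZMod 5} {s : ↥(OD a1)} (hs : s * s = 1) (σ : ZMod 5 → ZMod 5 → ZMod 5 × ZMod 5)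
    (hσ : ∀ x, act s x = fun k => if k = 0 then (σ (x 0) (x 1)).1 else
      if k = 1 then (σ (x 0) (x 1)).2 else x k)
    (T : ZMod 5 → ZMod 5 → Prop) [DecidableRel T]
    (hT : ∀ x y, T x y ↔ (¬ T (σ x y).1 (σ x y).2 ∧ σ x y ≠ (x, y))) {m : ℕ}
    (hm : (Finset.univ.filter fun p : ZMod 5 × ZMod 5 =>
      p.1 * p.1 + p.2 * p.2 = c ∧ T p.1 p.2).card = m) : chc a1 c s = (-1) ^ m := by
  have hrx : ∀ x : Fin 6 → ZMod 5, act (sg a1 ({0, 1}ᶜ : Finset (Fin 6))) x =
      fun k => if k = 0 then x 0 else if k = 1 then x 1 else - x k := by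
    intro x
    rw [act_sg]
    funext k
    by_cases h4 : k = 0
    · subst h4; simp
    by_cases h5 : k = 1
    · subst h5; simp
    · simp [h4, h5]
  refine chc_eq (r := sg a1 ({0, 1}ᶜ : Finset (Fin 6))) hs (sg_mul_self _)
    (fun x => T (x 0) (x 1)) ?_ ?_ ?_
  · intro x _
    have h1 : (act s x) 0 = (σ (x 0) (x 1)).1 := by rw [hσ]; simp
    have h2 : (act s x) 1 = (σ (x 0) (x 1)).2 := by rw [hσ]; simp
    show T (x 0) (x 1) ↔ (¬ T ((act s x) 0) ((act s x) 1) ∧ _)
    rw [h1, h2, hT]
    refine and_congr Iff.rfl ?_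
    rw [not_iff_not]
    constructor
    · intro h
      funext k
      rw [hσ, h]
      by_cases h4 : k = 0
      · subst h4; simp
      by_cases h5 : k = 1
      · subst h5; simp
      · simp [h4, h5]
    · intro h
      rw [Prod.ext_iff, ← h1, ← h2]
      exact ⟨congrFun h 0, congrFun h 1⟩
  · intro x hx
    show T ((act (sg a1 ({0, 1}ᶜ : Finset (Fin 6))) x) 0)
      ((act (sg a1 ({0, 1}ᶜ : Finset (Fin 6))) x) 1)
    rw [hrx]
    simpa using hx
  · rw [← hm]
    have hfix : ∀ x : Fin 6 → ZMod 5, act (sg a1 ({0, 1}ᶜ : Finset (Fin 6))) x = x ↔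
        ∀ k, k ≠ 0 → k ≠ 1 → x k = 0 := by
      intro x
      rw [hrx]
      constructor
      · intro h k h4 h5
        have h6 := congrFun h k
        simp only [h4, h5, if_false] at h6
        have h7 : (2 : ZMod 5) * x k = 0 := by linear_combination -h6
        exact (mul_eq_zero.1 h7).resolve_left (by decide)
      · intro h
        funext k
        by_cases h4 : k = 0
        · subst h4; simp
        by_cases h5 : k = 1
        · subst h5; simp
        · simp [h4, h5, h k h4 h5]
    have hB : ∀ x : Fin 6 → ZMod 5, (∀ k, k ≠ 0 → k ≠ 1 → x k = 0) →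
        B a1 x x = x 0 * x 0 + x 1 * x 1 := by
      intro x hx
      unfold B
      rw [← Finset.sum_subset (Finset.subset_univ ({0, 1} : Finset (Fin 6)))]
      · rw [Finset.sum_pair (by decide)]
        ring
      · intro l _ hl
        simp only [Finset.mem_insert, Finset.mem_singleton, not_or] at hl
        rw [hx l hl.1 hl.2]
        ring
    rw [← Fintype.card_coe, ← Nat.card_eq_fintype_card]
    refine Nat.card_congr
      { toFun := fun x => ⟨(x.1 0, x.1 1), ?_⟩
        invFun := fun p => ⟨fun k => if k = 0 then p.1.1 else if k = 1 then p.1.2 else 0, ?_⟩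
        left_inv := fun x => ?_
        right_inv := fun p => ?_ }
    · have h1 := (hfix x.1).1 x.2.2.2
      rw [Finset.mem_filter]
      exact ⟨Finset.mem_univ _, by rw [← hB x.1 h1]; exact x.2.1, x.2.2.1⟩
    · have h1 := (Finset.mem_filter.1 p.2).2
      have h2 : ∀ k : Fin 6, k ≠ 0 → k ≠ 1 →
          (if k = 0 then p.1.1 else if k = 1 then p.1.2 else (0 : ZMod 5)) = 0 := by
        intro k h3 h4
        simp [h3, h4]
      refine ⟨?_, ?_, ?_⟩
      · rw [hB _ h2]
        simpa using h1.1
      · simpa using h1.2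
      · rw [hfix]
        exact h2
    · apply Subtype.ext
      have h1 := (hfix x.1).1 x.2.2.2
      funext k
      show (if k = 0 then x.1 0 else if k = 1 then x.1 1 else (0 : ZMod 5)) = x.1 k
      by_cases h4 : k = 0
      · subst h4; simp
      by_cases h5 : k = 1
      · subst h5; simp
      · simp [h4, h5, h1 k h4 h5]
    · apply Subtype.ext
      simp

/-- values on the first reflection -/
lemma chc_e0 : chc a1 1 (rfl' a1 (ee 0)) = -1 ∧ chc a1 2 (rfl' a1 (ee 0)) = 1 := by
  have hs := rfl'_mul_self (a := a1) (ee 0)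
  have hσ : ∀ x, act (rfl' a1 (ee 0)) x = fun k => if k = 0 then ((fun s t => (-s, t)) (x 0) (x 1) : ZMod 5 × ZMod 5).1 else
      if k = 1 then ((fun s t => (-s, t)) (x 0) (x 1) : ZMod 5 × ZMod 5).2 else x k := by
    intro x
    rw [act_rfl'_e (by decide)]
    funext k
    by_cases h4 : k = 0
    · subst h4; simp
    by_cases h5 : k = 1
    · subst h5; simp
    · simp [h4, h5]
  constructor
  · have := chc6 (c := 1) hs (fun s t => (-s, t)) hσ (fun s t => s = 1 ∨ s = 2) (by decide)
      (m := 1) (by decide +kernel)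
    rw [this]; rfl
  · have := chc6 (c := 2) hs (fun s t => (-s, t)) hσ (fun s t => s = 1 ∨ s = 2) (by decide)
      (m := 2) (by decide +kernel)
    rw [this]; rfl

/-- values on the second reflection -/
lemma chc_v1 : chc a1 1 (rfl' a1 v1) = 1 ∧ chc a1 2 (rfl' a1 v1) = -1 := by
  have hs := rfl'_mul_self (a := a1) v1
  have hσ : ∀ x, act (rfl' a1 v1) x = fun k => if k = 0 then ((fun s t => (t, s)) (x 0) (x 1) : ZMod 5 × ZMod 5).1 else
      if k = 1 then ((fun s t => (t, s)) (x 0) (x 1) : ZMod 5 × ZMod 5).2 else x k := by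
    intro x
    rw [act_v1]
  constructor
  · have := chc6 (c := 1) hs (fun s t => (t, s)) hσ (fun s t => s.val < t.val) (by decide)
      (m := 2) (by decide +kernel)
    rw [this]; rfl
  · have := chc6 (c := 2) hs (fun s t => (t, s)) hσ (fun s t => s.val < t.val) (by decide)
      (m := 1) (by decide +kernel)
    rw [this]; rfl

end

end Vale.Agent.P240.R2.H406.Six
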