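import Vale.Agent.P240.R2.H406.T2

/-!
The form `x_0^2 + ... + x_5^2` over `ZMod 5`: the common kernel of the two characters is the preimage
of the inner automorphisms.
-/

set_option autoImplicit false
set_option linter.all false

namespace Vale.Agent.P240.R2.H406.Six

open Matrix
open scoped commutatorElement
open Vale.Agent.P240.R2.H145.EO
open Vale.Agent.P240.R2.H401.D (POD SD0 SD0_normal)

noncomputable section

lemma B_e0 : B a1 (ee 0) (ee 0) = 1 := by
  rw [B_ei]; decide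

/-- a reflection is the first or the second one modulo the commutator subgroup -/
lemma cls (x : Fin 6 → ZMod 5) (hx : B a1 x x ≠ 0) :
    (IsSquare (B a1 x x) ∧ rfl' a1 x * rfl' a1 (ee 0) ∈ commutator ↥(OD a1)) ∨
      (¬ IsSquare (B a1 x x) ∧ rfl' a1 x * rfl' a1 v1 ∈ commutator ↥(OD a1)) := by
  have key : ∀ c d : ZMod 5, c ≠ 0 → ∀ y : Fin 6 → ZMod 5, B a1 y y = d → d ≠ 0 →
      c * c * B a1 x x = d → rfl' a1 x * rfl' a1 y ∈ commutator ↥(OD a1) := by
    intro c d hc y hy hd h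
    have h1 : B a1 (c • x) (c • x) = d := by
      rw [B_smul_left, B_smul_right, ← mul_assoc, h]
    rw [← rfl'_smul hc x]
    exact rr_mem (by rw [h1]; exact hd) (by rw [h1, hy])
  have h5 : ∀ t : ZMod 5, t ≠ 0 → t = 1 ∨ t = 2 ∨ t = 3 ∨ t = 4 := by decide
  have s1 : IsSquare (1 : ZMod 5) := ⟨1, by decide⟩
  have s4 : IsSquare (4 : ZMod 5) := ⟨2, by decide⟩
  have s2 : ¬ IsSquare (2 : ZMod 5) := by
    rintro ⟨r, hr⟩
    revert r; decide
  have s3 : ¬ IsSquare (3 : ZMod 5) := by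
    rintro ⟨r, hr⟩
    revert r; decide
  rcases h5 _ hx with h | h | h | h
  · exact Or.inl ⟨by rw [h]; exact s1, key 1 1 (by decide) _ B_e0 (by decide)
      (by rw [h]; decide)⟩
  · exact Or.inr ⟨by rw [h]; exact s2, key 1 2 (by decide) _ B_v1 (by decide)
      (by rw [h]; decide)⟩
  · exact Or.inr ⟨by rw [h]; exact s3, key 2 2 (by decide) _ B_v1 (by decide)
      (by rw [h]; decide)⟩
  · exact Or.inl ⟨by rw [h]; exact s4, key 2 1 (by decide) _ B_e0 (by decide)
      (by rw [h]; decide)⟩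

/-- the image in the abelianization -/
lemma gen_ab (g : ↥(OD a1)) : ∃ α β : ℕ, Abelianization.of g =
    Abelianization.of (rfl' a1 (ee 0)) ^ α * Abelianization.of (rfl' a1 v1) ^ β := by
  have hg : g ∈ Subgroup.closure {g | ∃ v, B a1 v v ≠ 0 ∧ g = rfl' a1 v} := by
    rw [refl_gen (a := a1) (fun _ => one_ne_zero)]
    exact Subgroup.mem_top _
  have hof : ∀ {x y : ↥(OD a1)}, y * y = 1 → x * y ∈ commutator ↥(OD a1) →
      Abelianization.of x = Abelianization.of y := by
    intro x y hy h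
    have h1 : Abelianization.of (x * y) = 1 := comm_one Abelianization.of h
    have h2 : Abelianization.of (x * y) * Abelianization.of y = Abelianization.of x := by
      rw [← map_mul, mul_assoc, hy, mul_one]
    rw [← h2, h1, one_mul]
  induction hg using Subgroup.closure_induction with
  | mem x hx =>
    obtain ⟨v, hv, rfl⟩ := hx
    rcases cls v hv with ⟨-, h⟩ | ⟨-, h⟩
    · exact ⟨1, 0, by rw [hof (rfl'_mul_self _) h, pow_one, pow_zero, mul_one]⟩
    · exact ⟨0, 1, by rw [hof (rfl'_mul_self _) h, pow_one, pow_zero, one_mul]⟩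
  | one => exact ⟨0, 0, by rw [map_one, pow_zero, pow_zero, mul_one]⟩
  | mul x y _ _ hx hy =>
    obtain ⟨α, β, h1⟩ := hx
    obtain ⟨α', β', h2⟩ := hy
    exact ⟨α + α', β + β', by rw [map_mul, h1, h2, pow_add, pow_add, mul_mul_mul_comm]⟩
  | inv x _ hx =>
    obtain ⟨α, β, h1⟩ := hx
    refine ⟨α, β, ?_⟩
    rw [map_inv, h1, mul_inv, ← inv_pow, ← inv_pow, ← map_inv, ← map_inv, rfl'_inv, rfl'_inv]

/-- the commutator subgroup is the common kernel -/
lemma mem_comm {g : ↥(OD a1)} :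
    g ∈ commutator ↥(OD a1) ↔ chc a1 1 g = 1 ∧ chc a1 2 g = 1 := by
  constructor
  · intro h
    exact ⟨comm_one _ h, comm_one _ h⟩
  · rintro ⟨h1, h2⟩
    obtain ⟨α, β, h⟩ := gen_ab g
    have e1 : ∀ (c : ZMod 5) (x : ↥(OD a1)), Abelianization.lift (chc a1 c) (Abelianization.of x) =
        chc a1 c x := fun c x => Abelianization.lift_apply_of _ x
    have h3 := congrArg (Abelianization.lift (chc a1 1)) h
    have h4 := congrArg (Abelianization.lift (chc a1 2)) h
    rw [map_mul, map_pow, map_pow, e1, e1, e1, h1, chc_e0.1, chc_v1.1, one_pow, mul_one] at h3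
    rw [map_mul, map_pow, map_pow, e1, e1, e1, h2, chc_e0.2, chc_v1.2, one_pow, one_mul] at h4
    have hα : Even α := even_of_pow (by decide) h3.symm
    have hβ : Even β := even_of_pow (by decide) h4.symm
    obtain ⟨α', rfl⟩ := hα
    obtain ⟨β', rfl⟩ := hβ
    have hq : ∀ (x : Fin 6 → ZMod 5) (m : ℕ), Abelianization.of (rfl' a1 x) ^ (m + m) = 1 := by
      intro x m
      rw [← two_mul, pow_mul, pow_two, ← map_mul, rfl'_mul_self, map_one, one_pow]
    rw [hq, hq, one_mul] at h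
    exact (QuotientGroup.eq_one_iff g).1 h

/-- the preimage of the inner automorphisms -/
lemma inn_iff (g : ↥(OD a1)) : Phi a1 g ∈ (MulAut.conj (G := Lam a1)).range ↔
    chc a1 1 g = 1 ∧ chc a1 2 g = 1 := by
  rw [← mem_comm]
  constructor
  · rintro ⟨l, hl⟩
    obtain ⟨k, hk, rfl⟩ := exists_pi l
    rw [← Phi_conj hk] at hl
    have h1 : Phi a1 (k⁻¹ * g) = 1 := by
      rw [map_mul, map_inv, hl, inv_mul_cancel]
    have hk' := mem_SD0.1 hk
    rcases (ker6 _).1 h1 with h2 | h2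
    · rw [← inv_mul_eq_one.1 h2]
      exact hk'
    · have h3 : g = k * sg a1 Finset.univ := by rw [← h2]; group
      rw [h3]
      exact mul_mem hk' univ_comm
  · intro h
    exact ⟨pi' g (mem_SD0.2 h), (Phi_conj _).symm⟩

open Classical in
/-- **the characters** -/
theorem chi6 : ∃ χ₁ χ₂ : ↥(OD a1) →* ℤˣ,
    (∀ x : Fin 6 → ZMod 5, B a1 x x ≠ 0 →
      χ₁ (rfl' a1 x) = (if IsSquare (B a1 x x) then -1 else 1) ∧
      χ₂ (rfl' a1 x) = (if IsSquare (B a1 x x) then 1 else -1)) ∧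
    ∀ g : ↥(OD a1), Phi a1 g ∈ (MulAut.conj (G := Lam a1)).range ↔ χ₁ g = 1 ∧ χ₂ g = 1 := by
  refine ⟨chc a1 1, chc a1 2, fun x hx => ?_, inn_iff⟩
  have key : ∀ (c : ZMod 5) (y : Fin 6 → ZMod 5), rfl' a1 x * rfl' a1 y ∈ commutator ↥(OD a1) →
      chc a1 c (rfl' a1 x) = chc a1 c (rfl' a1 y) := by
    intro c y h
    have h1 := comm_one (chc a1 c) h
    rw [map_mul] at h1
    have h2 : chc a1 c (rfl' a1 y) * chc a1 c (rfl' a1 y) = 1 := by
      rw [← map_mul, rfl'_mul_self, map_one]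
    calc _ = chc a1 c (rfl' a1 x) * (chc a1 c (rfl' a1 y) * chc a1 c (rfl' a1 y)) := by
          rw [h2, mul_one]
      _ = _ := by rw [← mul_assoc, h1, one_mul]
  rcases cls x hx with ⟨h, h'⟩ | ⟨h, h'⟩
  · rw [if_pos h, if_pos h, key 1 _ h', key 2 _ h']
    exact chc_e0
  · rw [if_neg h, if_neg h, key 1 _ h', key 2 _ h']
    exact chc_v1

end

end Vale.Agent.P240.R2.H406.Six
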