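import Vale.Agent.P240.R2.H406.Z1

/-!
Block P4d (Z): the cycle for the group of inner automorphisms.
-/

set_option autoImplicit false
set_option linter.all false

namespace Vale.Agent.P240.R2.H406.Z

open Matrix Vale.Agent.P240.K
open Subgroup hiding closure
open Vale.Agent.P240.R2.H145.EO (B OD B_comm B_add_left B_add_right B_smul_left
  B_smul_right B_sub_left B_sub_right)
open Vale.Agent.P240.R2.H406 Vale.Agent.P240.R2.H458
open Vale.Agent.P240.R2.H490 (ip VR Lt FrD Ew)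
open Vale.Agent.P240.R2.H987 (le le_x le_sq le_mem flag SS_Ew SS_dropLast top_FrD)

universe u v w

noncomputable section

lemma sg02 : sg a1 {0, 2} = pr2 wI 0 2 := by
  refine frI.act_ext fun i => ?_
  rw [frI.act_pr2, act_sg]
  revert i
  decide +kernel

lemma sg12 : sg a1 {1, 2} = pr2 wI 1 2 := by
  refine frI.act_ext fun i => ?_
  rw [frI.act_pr2, act_sg]
  revert i
  decide +kernel

lemma sg23 : sg a1 {2, 3} = pr2 wI 2 3 := by
  refine frI.act_ext fun i => ?_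
  rw [frI.act_pr2, act_sg]
  revert i
  decide +kernel

lemma sg_ne (hK : StmtKer6) {J : Finset (Fin 6)} (h1 : J ≠ ∅) (h2 : J ≠ Finset.univ) :
    Phi a1 (sg a1 J) ≠ 1 := by
  intro h
  have key : ∀ J' : Finset (Fin 6), sg a1 J = sg a1 J' → J = J' := by
    intro J' h
    ext l
    have h3 := congrArg (fun g => act g (ee l) l) h
    simp only [act_sg] at h3
    by_cases h4 : l ∈ J <;> by_cases h5 : l ∈ J' <;> simp [h4, h5] at h3 ⊢
    · exact absurd h3 (by decide)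
    · exact absurd h3 (by decide)
  rcases (hK _).1 h with h3 | h3
  · exact h1 (key _ (h3.trans sg_empty.symm))
  · exact h2 (key _ h3)

/-- the four elements of `A0` -/
lemma A0_card (hK : StmtKer6) : Nat.card H458.A0 = 4 := by
  have ha : Phi a1 (sg a1 {0, 2}) * Phi a1 (sg a1 {0, 2}) = 1 := by
    rw [← map_mul, sg_mul_self, map_one]
  have hb : Phi a1 (sg a1 {1, 2}) * Phi a1 (sg a1 {1, 2}) = 1 := by
    rw [← map_mul, sg_mul_self, map_one]
  have hab : Phi a1 (sg a1 {0, 2}) * Phi a1 (sg a1 {1, 2}) =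
      Phi a1 (sg a1 {1, 2}) * Phi a1 (sg a1 {0, 2}) := by
    rw [← map_mul, ← map_mul, sg_comm]
  rw [H458.A0, ← H506.V4_eq ha hb hab]
  refine H506.V4_card ha hb hab (sg_ne hK (by decide) (by decide))
    (sg_ne hK (by decide) (by decide)) ?_
  intro h
  have h1 : Phi a1 (sg a1 {0, 2} * sg a1 {1, 2}) = 1 := by
    rw [map_mul, h, hb]
  rw [sg_mul] at h1
  exact sg_ne hK (by decide) (by decide) h1

lemma A0_mem {J : Finset (Fin 6)} : ∀ J : Finset (Fin 6), Even J.card →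
    ((3 ∉ J ∧ 4 ∉ J ∧ 5 ∉ J) ∨ (3 ∈ J ∧ 4 ∈ J ∧ 5 ∈ J)) →
    (J = ∅ ∨ J = {0, 2} ∨ J = {1, 2} ∨ J = symmDiff {0, 2} {1, 2}) ∨
      (J = Finset.univ ∨ J = symmDiff Finset.univ {0, 2} ∨ J = symmDiff Finset.univ {1, 2} ∨
        J = symmDiff Finset.univ (symmDiff {0, 2} {1, 2})) := by
  decide +kernel

lemma mem_A0 (hK : StmtKer6) {J : Finset (Fin 6)} (hJ : Even J.card)
    (h : (3 ∉ J ∧ 4 ∉ J ∧ 5 ∉ J) ∨ (3 ∈ J ∧ 4 ∈ J ∧ 5 ∈ J)) : Phi a1 (sg a1 J) ∈ H458.A0 := by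
  have hu : Phi a1 (sg a1 Finset.univ) = 1 := (hK _).2 (Or.inr rfl)
  have h02 : Phi a1 (sg a1 {0, 2}) ∈ H458.A0 := Subgroup.subset_closure (Or.inl rfl)
  have h12 : Phi a1 (sg a1 {1, 2}) ∈ H458.A0 := Subgroup.subset_closure (Or.inr rfl)
  rcases A0_mem (J := J) J hJ h with (h | h | h | h) | (h | h | h | h) <;> rw [h]
  · rw [sg_empty, map_one]; exact one_mem _
  · exact h02
  · exact h12
  · rw [← sg_mul, map_mul]; exact mul_mem h02 h12
  · rw [hu]; exact one_mem _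
  · rw [← sg_mul, map_mul, hu, one_mul]; exact h02
  · rw [← sg_mul, map_mul, hu, one_mul]; exact h12
  · rw [← sg_mul, ← sg_mul, map_mul, map_mul, hu, one_mul]; exact mul_mem h02 h12

/-! ### the flag -/

section
variable {n : ℕ} {d : Fin n → ZMod 5} {G : Type w} [Group G] {R : (Fin n → ZMod 5) → G}

lemma SS_le (hd : ∀ i, d i ≠ 0) (h : VR d R) (l : List (Fin n)) :
    AS.SS (Ew fun P : Lt d => R P.x) (l.map (le hd)) =
      Subgroup.closure {y | ∃ i ∈ l, y = R (Pi.single i 1)} := by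
  rw [SS_Ew]
  congr 1
  have key : ∀ i, R (le hd i).x = R (Pi.single i 1) := by
    intro i
    obtain ⟨c, hc, h4⟩ := le_x hd i
    rw [h4, h.smul c _ hc (by rw [H490.ip_single_right, Pi.single_eq_same, mul_one]; exact hd i)]
  ext y
  constructor
  · rintro ⟨P, hP, rfl⟩
    obtain ⟨i, hi, rfl⟩ := List.mem_map.1 hP
    exact ⟨i, hi, key i⟩
  · rintro ⟨i, hi, rfl⟩
    exact ⟨le hd i, List.mem_map.2 ⟨i, hi, rfl⟩, (key i).symm⟩

end

/-- **(Z)** -/
theorem stmtZ (𝕜 : Type v) [Field 𝕜] : StmtZ 𝕜 := by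
  intro hK hV χ hχ
  have h := csZ hχ
  set M₀ : Subgroup (MulAut (Lam a1)) := MQ χ ⊥ ⊓ centralizer
    ((Subgroup.closure {rl, rm} : Subgroup (MulAut (Lam a1))) : Set (MulAut (Lam a1))) with hM₀
  have hd : ∀ i : Fin 4, (dI ∘ κZ) i ≠ 0 := fun i => h.fr.ne (κZ i)
  have hvr := h.vr hK hV
  have hfull := h.full hK hV hχ
  have hM : ∀ x, ip (dI ∘ κZ) x x ≠ 0 → RV wI κZ (rfl' a1 (wI 2)) (rfl' a1 (wI 4)) x ∈ M₀ := by
    intro x hx
    refine mem_inf.2 ⟨h.RV_mem hχ hx, ?_⟩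
    have h1 : Subgroup.closure {rl, rm} ≤
        centralizer {RV wI κZ (rfl' a1 (wI 2)) (rfl' a1 (wI 4)) x} := by
      rw [Subgroup.closure_le]
      rintro y (rfl | rfl)
      · rw [SetLike.mem_coe, mem_centralizer_iff]
        rintro z rfl
        exact h.rho_comm x (Or.inl rfl)
      · rw [SetLike.mem_coe, mem_centralizer_iff]
        rintro z rfl
        exact h.rho_comm x (Or.inr rfl)
    rw [mem_centralizer_iff]
    intro y hy
    exact (mem_centralizer_iff.1 (h1 hy) _ rfl).symm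
  set g : List (Lt (dI ∘ κZ)) := ([0, 1, 2, 3] : List (Fin 4)).map (le hd) with hgd
  have hg : g ∈ FrD (dI ∘ κZ) := le_mem hd (by decide) (by decide)
  have ht : g.map (fun P => IsSquare (ip (dI ∘ κZ) P.x P.x)) =
      List.replicate 0 False ++ (List.replicate 3 True ++ [False]) := by
    have e0 : IsSquare (ip (dI ∘ κZ) (le hd 0).x (le hd 0).x) = True :=
      eq_true ((le_sq hd 0).2 ⟨1, by decide⟩)
    have e1 : IsSquare (ip (dI ∘ κZ) (le hd 1).x (le hd 1).x) = True :=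
      eq_true ((le_sq hd 1).2 ⟨1, by decide⟩)
    have e2 : IsSquare (ip (dI ∘ κZ) (le hd 2).x (le hd 2).x) = True :=
      eq_true ((le_sq hd 2).2 ⟨1, by decide⟩)
    have e3 : IsSquare (ip (dI ∘ κZ) (le hd 3).x (le hd 3).x) = False := by
      refine eq_false fun h3 => ?_
      obtain ⟨r, hr⟩ := (le_sq hd 3).1 h3
      revert r
      decide
    show [_, _, _, _] = [_, _, _, _]
    beta_reduce
    rw [e0, e1, e2, e3]
  obtain ⟨α, hα⟩ := top_FrD (RingEquiv.refl (ZMod 5)) (by norm_num) hd hvr hfull M₀ hM hg (m := 0)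
    (j := 3) (by norm_num) ht 𝕜
  have hF3 : AS.SS (Ew fun P : Lt (dI ∘ κZ) => RV wI κZ (rfl' a1 (wI 2)) (rfl' a1 (wI 4)) P.x)
      g.dropLast = FV wI κZ (rfl' a1 (wI 2)) (rfl' a1 (wI 4)) := by
    rw [SS_dropLast hfull hg, ← SS_Ew, hgd, SS_le hd hvr, FV]
    congr 1
    ext y
    constructor
    · rintro ⟨i, -, rfl⟩
      exact ⟨i, rfl⟩
    · rintro ⟨i, rfl⟩
      exact ⟨i, by revert i; decide, rfl⟩
  have hF2 : AS.SS (Ew fun P : Lt (dI ∘ κZ) => RV wI κZ (rfl' a1 (wI 2)) (rfl' a1 (wI 4)) P.x)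
      (g.take 2) = H458.A0 := by
    have h1 : g.take 2 = ([0, 1] : List (Fin 4)).map (le hd) := rfl
    rw [h1, SS_le hd hvr, H458.A0, sg02, sg12]
    congr 1
    ext y
    have e0 := h.RV_single 0
    have e1 := h.RV_single 1
    constructor
    · rintro ⟨i, hi, rfl⟩
      rw [List.mem_cons, List.mem_singleton] at hi
      rcases hi with rfl | rfl
      · left; rw [e0]; rfl
      · right; rw [e1]; rfl
    · rintro (rfl | rfl)
      · exact ⟨0, by decide, e0.symm⟩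
      · exact ⟨1, by decide, e1.symm⟩
  have hflag : flag (Ew fun P : Lt (dI ∘ κZ) => RV wI κZ (rfl' a1 (wI 2)) (rfl' a1 (wI 4)) P.x) g =
      [FV wI κZ (rfl' a1 (wI 2)) (rfl' a1 (wI 4)), H458.A0,
        AS.SS (Ew fun P : Lt (dI ∘ κZ) => RV wI κZ (rfl' a1 (wI 2)) (rfl' a1 (wI 4)) P.x)
          (g.take 1)] := by
    rw [← hF3, ← hF2]
    rfl
  rw [hF3, hflag] at hα
  -- the common facts
  have hab : ∀ T ∈ Ain 2 (MQ χ ⊥), H458.A0 ≤ T → ∀ t ∈ T,
      t * Phi a1 (sg a1 {0, 2}) = Phi a1 (sg a1 {0, 2}) * t ∧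
      t * Phi a1 (sg a1 {1, 2}) = Phi a1 (sg a1 {1, 2}) * t := fun T hT hle t ht =>
    ⟨hT.1.2.1 t ht _ (hle (Subgroup.subset_closure (Or.inl rfl))),
      hT.1.2.1 t ht _ (hle (Subgroup.subset_closure (Or.inr rfl)))⟩
  have hM₀le : M₀ ≤ MQ χ ⊥ := inf_le_left
  refine slice_lc hα (fun T => T ≤ centralizer {Phi a1 (sg a1 {2, 3})}) ?_ ?_ (A0_card hK) ?_
  · -- the function is constant on the links
    intro T T' hT hT' hlt hlt'
    constructor
    · intro hC
      obtain ⟨t, ht, htA⟩ := SetLike.exists_of_lt hlt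
      obtain ⟨c1, c2⟩ := hab T hT hlt.le t ht
      have c3 : t * Phi a1 (sg a1 {2, 3}) = Phi a1 (sg a1 {2, 3}) * t :=
        (mem_centralizer_iff.1 (hC ht) _ rfl).symm
      obtain ⟨q, hq, rfl⟩ := hT.2 ht
      have hq1 : χ q = 1 := mem_bot.1 hq
      obtain ⟨J, rfl⟩ := dg_sg (dg_of_23 hK hχ hq1 c1 c2 c3)
      have hJ : Even J.card := even_of_chi hχ hq1
      have h3 : ¬ ((3 ∉ J ∧ 4 ∉ J ∧ 5 ∉ J) ∨ (3 ∈ J ∧ 4 ∈ J ∧ 5 ∈ J)) := fun h4 =>
        htA (mem_A0 hK hJ h4)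
      intro t' ht'
      obtain ⟨c4, c5⟩ := hab T' hT' (hlt.le.trans hlt'.le) t' ht'
      have c6 := hT'.1.2.1 t' ht' _ (hlt'.le ht)
      obtain ⟨q', hq', rfl⟩ := hT'.2 ht'
      have hD := dg_of_J hK hχ (mem_bot.1 hq') hJ (fun h4 => h3 (Or.inl h4))
        (fun h4 => h3 (Or.inr h4)) c4 c5 c6
      rw [mem_centralizer_iff]
      rintro z rfl
      have hS : Dg ee (sg a1 {2, 3}) := by
        intro l
        rw [act_sge]
        split_ifs
        · right; rw [neg_one_smul]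
        · left; rw [one_smul]
      rw [← map_mul, ← map_mul, frS.dg_comm hS hD]
    · exact fun hC => hlt'.le.trans hC
  · -- `FV`
    rw [FV, Subgroup.closure_le]
    rintro _ ⟨i, rfl⟩
    rw [SetLike.mem_coe, mem_centralizer_iff]
    rintro z rfl
    show Phi a1 (sg a1 {2, 3}) * RV wI κZ (rfl' a1 (wI 2)) (rfl' a1 (wI 4)) (Pi.single i 1) =
      RV wI κZ (rfl' a1 (wI 2)) (rfl' a1 (wI 4)) (Pi.single i 1) * Phi a1 (sg a1 {2, 3})
    rw [h.RV_single, sg23, ← map_mul, ← map_mul, frI.dg_comm (frI.pr2_dg _ _) (frI.pr2_dg _ _)]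
  · -- uniqueness
    intro T hT hlt hcard hC
    have hT' : T ∈ Ain 2 (MQ χ ⊥) := ⟨hT.1, hT.2.trans hM₀le⟩
    have hle : T ≤ FV wI κZ (rfl' a1 (wI 2)) (rfl' a1 (wI 4)) := by
      intro t ht
      obtain ⟨c1, c2⟩ := hab T hT' hlt.le t ht
      have c3 : t * Phi a1 (sg a1 {2, 3}) = Phi a1 (sg a1 {2, 3}) * t :=
        (mem_centralizer_iff.1 (hC ht) _ rfl).symm
      have c4 := (mem_inf.1 (hT.2 ht)).2
      rw [mem_centralizer_iff] at c4
      have c5 : t * rl = rl * t := (c4 rl (Subgroup.subset_closure (Or.inl rfl))).symm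
      have c6 : t * rm = rm * t := (c4 rm (Subgroup.subset_closure (Or.inr rfl))).symm
      obtain ⟨q, hq, rfl⟩ := hT'.2 ht
      refine h.dg_FV hχ ?_ hq
      refine frI.dg_of_comm hK {(0, 2), (1, 2), (2, 3), (2, 2), (4, 4)} (by decide) ?_
      intro p hp
      simp only [Finset.mem_insert, Finset.mem_singleton] at hp
      rcases hp with rfl | rfl | rfl | rfl | rfl
      · rw [sg02] at c1; exact c1
      · rw [sg12] at c2; exact c2
      · rw [sg23] at c3; exact c3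
      · show Phi a1 q * Phi a1 (pr2 wI 2 2) = Phi a1 (pr2 wI 2 2) * Phi a1 q
        rw [pr2_same]
        exact c5
      · show Phi a1 q * Phi a1 (pr2 wI 4 4) = Phi a1 (pr2 wI 4 4) * Phi a1 q
        rw [pr2_same]
        exact c6
    refine Subgroup.eq_of_le_of_card_ge hle ?_
    rw [hα.card]
    exact hcard

end

end Vale.Agent.P240.R2.H406.Z
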