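import Vale.Agent.P240.R2.H458.P6D
import Vale.Agent.P240.R2.H406.S8

/-!
Block P4d (Z): isometries of `x_0^2 + ... + x_5^2` commuting with even sign changes.
-/

set_option autoImplicit false
set_option linter.all false

namespace Vale.Agent.P240.R2.H406.Z

open Matrix Vale.Agent.P240.K
open Subgroup hiding closure
open Vale.Agent.P240.R2.H145.EO (B OD B_comm B_add_left B_add_right B_smul_left
  B_smul_right B_sub_left B_sub_right)
open Vale.Agent.P240.R2.H406 Vale.Agent.P240.R2.H458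

universe u v w

noncomputable section

/-- expansion of a vector in a coordinate plane -/
lemma exp2 {x : V6} {i j : Fin 6} (hij : i ≠ j)
    (h : ∀ l, l ≠ i → l ≠ j → B a1 x (ee l) = 0) :
    x = B a1 x (ee i) • ee i + B a1 x (ee j) • ee j := by
  refine frS.ext fun l => ?_
  rw [B_add_left, B_smul_left, B_smul_left]
  by_cases h1 : l = i
  · subst h1
    rw [frS.self, frS.orth hij.symm, mul_one, mul_zero, add_zero]
  · by_cases h2 : l = j
    · subst h2
      rw [frS.self, frS.orth hij, mul_one, mul_zero, zero_add]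
    · rw [frS.orth (Ne.symm h1), frS.orth (Ne.symm h2), h l h1 h2, mul_zero, mul_zero, add_zero]

lemma B_v {i j : Fin 6} (hij : i ≠ j) : B a1 (ee i - ee j) (ee i - ee j) = 2 := by
  rw [B_sub_left, B_sub_right, B_sub_right, frS.self, frS.self, frS.orth hij, frS.orth hij.symm]
  decide

/-- the reflection that swaps two basis vectors -/
lemma act_swap {i j : Fin 6} (hij : i ≠ j) (l : Fin 6) :
    act (rfl' a1 (ee i - ee j)) (ee l) = ee (Equiv.swap i j l) := by
  rw [act_rfl' (by rw [B_v hij]; decide), B_v hij, B_sub_left]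
  by_cases h1 : l = i
  · subst h1
    rw [frS.self, frS.orth hij.symm, Equiv.swap_apply_left]
    have : (2 : ZMod 5) * (1 - 0) / 2 = 1 := by
      rw [sub_zero, mul_one, div_self (by decide)]
    rw [this, one_smul]
    abel
  · by_cases h2 : l = j
    · subst h2
      rw [frS.self, frS.orth hij, Equiv.swap_apply_right]
      have : (2 : ZMod 5) * (0 - 1) / 2 = -1 := by
        rw [zero_sub, mul_neg, mul_one, neg_div, div_self (by decide)]
      rw [this, neg_one_smul]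
      abel
    · rw [frS.orth (Ne.symm h1), frS.orth (Ne.symm h2), Equiv.swap_apply_of_ne_of_ne h1 h2]
      have : (2 : ZMod 5) * (0 - 0) / 2 = 0 := by
        rw [sub_zero, mul_zero, zero_div]
      rw [this, zero_smul, sub_zero]

section
variable {χ : ↥(OD a1) →* Q4} (hχ : Chi χ)
include hχ

lemma chi_r (i : Fin 6) : χ (rfl' a1 (ee i)) = (-1, 1) :=
  frS.chi1 hχ ⟨1, by decide⟩

lemma chi_dg {g : ↥(OD a1)} (hg : Dg ee g) : (χ g).2 = 1 := by
  have h1 : Subgroup.closure (Set.range fun i => rfl' a1 (ee i)) ≤ QO.comap χ := by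
    rw [Subgroup.closure_le]
    rintro _ ⟨i, rfl⟩
    show χ (rfl' a1 (ee i)) ∈ QO
    rw [chi_r hχ, mem_QO]
  exact mem_QO.1 (h1 (frS.dg_mem hg))

/-- **(DG)** -/
lemma dg_of_two {g : ↥(OD a1)} (hq : (χ g).2 = 1) {i j : Fin 6} (hij : i ≠ j)
    (h : ∀ k l, k ≠ l → ¬ ((k = i ∨ k = j) ∧ (l = i ∨ l = j)) → B a1 (act g (ee k)) (ee l) = 0) :
    Dg ee g := by
  set a := B a1 (act g (ee i)) (ee i) with ha
  set b := B a1 (act g (ee i)) (ee j) with hb
  set c := B a1 (act g (ee j)) (ee i) with hc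
  set e := B a1 (act g (ee j)) (ee j) with he
  have hi : act g (ee i) = a • ee i + b • ee j := exp2 hij fun l h1 h2 =>
    h i l (Ne.symm h1) (by rintro ⟨-, h3 | h3⟩; exacts [h1 h3, h2 h3])
  have hj : act g (ee j) = c • ee i + e • ee j := exp2 hij fun l h1 h2 =>
    h j l (Ne.symm h2) (by rintro ⟨-, h3 | h3⟩; exacts [h1 h3, h2 h3])
  have n1 : a * a + b * b = 1 := by
    have h1 : B a1 (act g (ee i)) (act g (ee i)) = 1 := by rw [act_B, frS.self]
    rw [hi] at h1
    simp only [B_add_left, B_add_right, B_smul_left, B_smul_right, frS.self, frS.orth hij,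
      frS.orth hij.symm] at h1
    rw [← h1]; ring
  have n2 : a * c + b * e = 0 := by
    have h1 : B a1 (act g (ee i)) (act g (ee j)) = 0 := by rw [act_B, frS.orth hij]
    rw [hi, hj] at h1
    simp only [B_add_left, B_add_right, B_smul_left, B_smul_right, frS.self, frS.orth hij,
      frS.orth hij.symm] at h1
    rw [← h1]; ring
  have hcase : (b = 0 ∧ c = 0) ∨ (a = 0 ∧ e = 0) := by
    have h1 : ∀ a b : ZMod 5, a * a + b * b = 1 → (b = 0 ∧ a ≠ 0) ∨ (a = 0 ∧ b ≠ 0) := by decide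
    rcases h1 a b n1 with ⟨h2, h3⟩ | ⟨h2, h3⟩
    · left
      refine ⟨h2, ?_⟩
      rw [h2, zero_mul, add_zero] at n2
      exact (mul_eq_zero.1 n2).resolve_left h3
    · right
      refine ⟨h2, ?_⟩
      rw [h2, zero_mul, zero_add] at n2
      exact (mul_eq_zero.1 n2).resolve_left h3
  rcases hcase with ⟨hb0, hc0⟩ | ⟨ha0, he0⟩
  · refine frS.dg_of fun k l hkl => ?_
    by_cases h1 : (k = i ∨ k = j) ∧ (l = i ∨ l = j)
    · obtain ⟨h2 | h2, h3 | h3⟩ := h1
      · exact absurd (h2.trans h3.symm) hkl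
      · rw [h2, h3, ← hb, hb0]
      · rw [h2, h3, ← hc, hc0]
      · exact absurd (h2.trans h3.symm) hkl
    · exact h k l hkl h1
  · exfalso
    have hd : Dg ee (rfl' a1 (ee i - ee j) * g) := by
      refine frS.dg_of fun k l hkl => ?_
      have h1 : B a1 (act (rfl' a1 (ee i - ee j) * g) (ee k)) (ee l) =
          B a1 (act g (ee k)) (ee (Equiv.swap i j l)) := by
        rw [← act_swap hij, ← act_B (rfl' a1 (ee i - ee j)) (act g (ee k)), ← H406.act_mul,
          ← H406.act_mul, rfl'_mul_self, H406.act_one]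
      rw [h1]
      by_cases hk : k = i
      · subst hk
        by_cases hl : l = j
        · rw [hl, Equiv.swap_apply_right, ← ha, ha0]
        · rw [Equiv.swap_apply_of_ne_of_ne (Ne.symm hkl) hl]
          exact h k l hkl (by rintro ⟨-, h3 | h3⟩; exacts [hkl h3.symm, hl h3])
      · by_cases hk' : k = j
        · subst hk'
          by_cases hl : l = i
          · rw [hl, Equiv.swap_apply_left, ← he, he0]
          · rw [Equiv.swap_apply_of_ne_of_ne hl (Ne.symm hkl)]
            exact h k l hkl (by rintro ⟨-, h3 | h3⟩; exacts [hl h3, hkl h3.symm])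
        · refine h k _ ?_ (by rintro ⟨h3 | h3, -⟩; exacts [hk h3, hk' h3])
          intro h3
          have h4 : Equiv.swap i j k = l := by rw [h3, Equiv.swap_apply_self]
          rw [Equiv.swap_apply_of_ne_of_ne hk hk'] at h4
          exact hkl h4
    have h1 := chi_dg hχ hd
    have h2 : χ (rfl' a1 (ee i - ee j)) = (1, -1) := by
      refine hχ.ns _ (by rw [B_v hij]; decide) ?_
      rw [B_v hij]
      rintro ⟨r, hr⟩
      revert r
      decide
    rw [map_mul, h2, Prod.snd_mul, hq] at h1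
    exact absurd h1 (by decide)

end

/-- diagonal isometries are sign changes -/
lemma dg_sg {g : ↥(OD a1)} (hg : Dg ee g) : ∃ J : Finset (Fin 6), g = sg a1 J := by
  classical
  refine ⟨Finset.univ.filter fun i => act g (ee i) = -ee i, frS.act_ext fun i => ?_⟩
  rw [act_sg]
  rcases hg i with h | h
  · have h1 : ¬ (act g (ee i) = -ee i) := by
      rw [h]
      exact fun h2 => neg_ne frS h2.symm
    rw [h]
    funext l
    by_cases h2 : l = i
    · subst h2
      simp [h1]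
    · simp [h2]
  · rw [h]
    funext l
    by_cases h2 : l = i
    · subst h2
      simp [h]
    · simp [h2]

lemma chi_sg {χ : ↥(OD a1) →* Q4} (hχ : Chi χ) (J : Finset (Fin 6)) :
    χ (sg a1 J) = ((-1) ^ J.card, 1) := by
  induction J using Finset.induction_on with
  | empty => rw [sg_empty, map_one]; rfl
  | insert i J hi ih =>
    rw [sg_insert hi, map_mul, ih, Finset.card_insert_of_notMem hi, pow_succ', ← rfl'_e (one_ne_zero),
      chi_r hχ]
    rfl

lemma even_of_chi {χ : ↥(OD a1) →* Q4} (hχ : Chi χ) {J : Finset (Fin 6)}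
    (h : χ (sg a1 J) = 1) : Even J.card := by
  rw [chi_sg hχ] at h
  have h1 : ((-1 : ℤˣ)) ^ J.card = 1 := congrArg Prod.fst h
  by_contra h2
  rw [Odd.neg_one_pow (Nat.not_even_iff_odd.1 h2)] at h1
  exact absurd h1 (by decide)

lemma tr_sg {J : Finset (Fin 6)} (h : Even J.card) : (sg a1 J).1.1.trace ≠ 0 := by
  rw [sg_coe, trace_diagonal]
  revert J
  decide +kernel

lemma act_sge (J : Finset (Fin 6)) (l : Fin 6) :
    act (sg a1 J) (ee l) = (if l ∈ J then -1 else 1 : ZMod 5) • ee l := by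
  rw [act_sg]
  funext k
  by_cases h : k = l
  · subst h
    by_cases h1 : k ∈ J <;> simp [h1]
  · simp [h]

/-- `k` and `l` are separated -/
def sp (J : Finset (Fin 6)) (k l : Fin 6) : Bool :=
  (decide (k ∈ ({0, 2} : Finset (Fin 6))) != decide (l ∈ ({0, 2} : Finset (Fin 6)))) ||
  (decide (k ∈ ({1, 2} : Finset (Fin 6))) != decide (l ∈ ({1, 2} : Finset (Fin 6)))) ||
  (decide (k ∈ J) != decide (l ∈ J))

/-- `k` and `l` are in the pair -/
def tw (p : Fin 6 × Fin 6) (k l : Fin 6) : Bool :=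
  (decide (k = p.1) || decide (k = p.2)) && (decide (l = p.1) || decide (l = p.2))

/-- the pair -/
def pk (J : Finset (Fin 6)) : Fin 6 × Fin 6 :=
  if (3 ∈ J ↔ 4 ∈ J) then (3, 4) else if (3 ∈ J ↔ 5 ∈ J) then (3, 5) else (4, 5)

lemma sepJ : ∀ J : Finset (Fin 6), ¬ (3 ∉ J ∧ 4 ∉ J ∧ 5 ∉ J) → ¬ (3 ∈ J ∧ 4 ∈ J ∧ 5 ∈ J) →
    (pk J).1 ≠ (pk J).2 ∧ ∀ k l : Fin 6, k ≠ l → tw (pk J) k l = false → sp J k l = true := by
  decide +kernel

lemma sp_iff {J : Finset (Fin 6)} {k l : Fin 6} (h : sp J k l = true) :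
      ¬ (k ∈ ({0, 2} : Finset (Fin 6)) ↔ l ∈ ({0, 2} : Finset (Fin 6))) ∨
        ¬ (k ∈ ({1, 2} : Finset (Fin 6)) ↔ l ∈ ({1, 2} : Finset (Fin 6))) ∨ ¬ (k ∈ J ↔ l ∈ J) := by
  simp only [sp, Bool.or_eq_true, bne_iff_ne, ne_eq, decide_eq_decide] at h
  tauto

lemma tw_iff {p : Fin 6 × Fin 6} {k l : Fin 6}
    (h : ¬ ((k = p.1 ∨ k = p.2) ∧ (l = p.1 ∨ l = p.2))) : tw p k l = false := by
  simp only [tw, Bool.and_eq_false_iff, Bool.or_eq_false_iff, decide_eq_false_iff_not]
  tauto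

/-- elements commuting with enough sign changes -/
lemma dg_of_J (hK : StmtKer6) {χ : ↥(OD a1) →* Q4} (hχ : Chi χ) {g : ↥(OD a1)} (hg : χ g = 1)
    {J : Finset (Fin 6)} (hJ : Even J.card) (h1 : ¬ (3 ∉ J ∧ 4 ∉ J ∧ 5 ∉ J)) (h2 : ¬ (3 ∈ J ∧ 4 ∈ J ∧ 5 ∈ J))
    (c1 : Phi a1 g * Phi a1 (sg a1 {0, 2}) = Phi a1 (sg a1 {0, 2}) * Phi a1 g)
    (c2 : Phi a1 g * Phi a1 (sg a1 {1, 2}) = Phi a1 (sg a1 {1, 2}) * Phi a1 g)
    (c3 : Phi a1 g * Phi a1 (sg a1 J) = Phi a1 (sg a1 J) * Phi a1 g) : Dg ee g := by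
  obtain ⟨hij, hs⟩ := sepJ J h1 h2
  refine dg_of_two hχ (by rw [hg]; rfl) hij fun k l hkl h => ?_
  have key : ∀ J : Finset (Fin 6), Even J.card →
      Phi a1 g * Phi a1 (sg a1 J) = Phi a1 (sg a1 J) * Phi a1 g →
      ¬ (k ∈ J ↔ l ∈ J) → B a1 (act g (ee k)) (ee l) = 0 := by
    intro J hJ hc hn
    refine B_zero_of_comm (comm_of_tr hK (tr_sg hJ) hc) (act_sge J k) (act_sge J l) ?_
    by_cases h3 : k ∈ J <;> by_cases h4 : l ∈ J <;> simp [h3, h4] at hn ⊢ <;> decide
  rcases sp_iff (hs k l hkl (tw_iff h)) with h3 | h3 | h3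
  · exact key _ (by decide) c1 h3
  · exact key _ (by decide) c2 h3
  · exact key _ hJ c3 h3

/-- elements commuting with three sign changes -/
lemma dg_of_23 (hK : StmtKer6) {χ : ↥(OD a1) →* Q4} (hχ : Chi χ) {g : ↥(OD a1)} (hg : χ g = 1)
    (c1 : Phi a1 g * Phi a1 (sg a1 {0, 2}) = Phi a1 (sg a1 {0, 2}) * Phi a1 g)
    (c2 : Phi a1 g * Phi a1 (sg a1 {1, 2}) = Phi a1 (sg a1 {1, 2}) * Phi a1 g)
    (c3 : Phi a1 g * Phi a1 (sg a1 {2, 3}) = Phi a1 (sg a1 {2, 3}) * Phi a1 g) : Dg ee g :=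
  dg_of_J hK hχ hg (J := {2, 3}) (by decide) (by decide) (by decide) c1 c2 c3

end

end Vale.Agent.P240.R2.H406.Z
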